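import Vale.Agent.P092TH.Av

/-!
P092 (helper7): exactly covariant windows, the limit measure on the cone, descent.
-/

set_option linter.all false

open scoped InnerProductSpace ENNReal NNReal CompactlySupported Pointwise
open MeasureTheory Filter Topology ContinuousLinearMap Set ProbabilityTheory

namespace Vale.Agent.P092TH

open Vale.Agent.P092CP Vale.Agent.P092RD
open Vale.Agent.P092.RC (Cm Moore)

variable {G G' K : Type} [Group G] [TopologicalSpace G] [IsTopologicalGroup G]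
  [LocallyCompactSpace G] [SecondCountableTopology G] [T2Space G] [MeasurableSpace G] [BorelSpace G]
  [Group G'] [TopologicalSpace G'] [IsTopologicalGroup G'] [LocallyCompactSpace G']
  [SecondCountableTopology G'] [T2Space G'] [MeasurableSpace G'] [BorelSpace G']
  [NormedAddCommGroup K] [InnerProductSpace ℂ K] [CompleteSpace K] {μ : Measure G}
  [μ.IsHaarMeasure] {μ' : Measure G'} [μ'.IsHaarMeasure] {W : Set (K →L[ℂ] K)}

section gd

theorem tr_cut (S : Side μ W) {T : K →L[ℂ] K} (hT : Cm W T) {V : Set G} (hV : MeasurableSet V) :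
    μ V * S.Tr T = ∫⁻ h, S.Tr (S.P V * (S.π h * T * S.π h⁻¹)) ∂μ := by
  have := S.cnt
  have h1 : ∀ h, S.Tr (S.P V * (S.π h * T * S.π h⁻¹)) =
      μ S.D * ∑' γ, ‖S.P V (S.π h (T (S.Om γ)))‖ₑ ^ 2 := fun h => by
    have h2 := cm_mul (S.conj _ (S.cm_P hV) h⁻¹) hT
    have h5 : S.P V * (S.π h * T * S.π h⁻¹) =
        S.π h * (S.π h⁻¹ * S.P V * S.π h⁻¹⁻¹ * T) * S.π h⁻¹ := by
      simp only [inv_inv, ← mul_assoc, pi_mul_inv, one_mul]
    rw [h5, S.Tr_conj, S.Tr_eq_tsum h2]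
    simp only [mul_ap, S.enorm_π, inv_inv]
  rw [lintegral_congr h1, lintegral_const_mul _ (.ennreal_tsum fun γ => S.meas_π _ _),
    lintegral_tsum fun γ => (S.meas_π _ _).aemeasurable, S.Tr_eq_tsum hT, mul_left_comm,
    ← ENNReal.tsum_mul_left]
  simp only [S.lint_P hV]

theorem enorm_f_le {Y : Type} [MeasurableSpace Y] (Ψ : POM Y K) {φ : Y → ℂ} (hφ : Bd φ) (ξ : K) :
    ‖Ψ.f φ ξ‖ₑ ^ 2 ≤ ∫⁻ y, ‖φ y‖ₑ ^ 2 ∂Ψ.ν ξ := by
  have := ENNReal.ofReal_le_ofReal (Ψ.norm_sq_le hφ ξ)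
  rw [ofReal_integral_eq_lintegral_ofReal (bd_int_sq hφ _) (.of_forall fun _ => sq_nonneg _)]
    at this
  simpa only [ENNReal.ofReal_pow (norm_nonneg _), ofReal_norm] using this

variable {Y : Type} [MeasurableSpace Y] [MulAction G' Y] [MeasurableSMul₂ G' Y]

/-- **General descent**: a covariant measure against a position function -/
theorem gd (C : Cpl μ μ' W) {Ψ : POM Y K} (cm : ∀ φ, Bd φ → Cm W (Ψ.f φ)) (cov : Cov C.t.π Ψ)
    {φ : Y → ℂ} (hφ : Bd φ) {f : G' → ℂ} (hf : Bd f) {V : Set G'} (hV : MeasurableSet V)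
    (h0 : μ' V ≠ 0) (h1 : μ' V ≠ ∞) {g : G' → ℝ≥0∞} (mg : Measurable g)
    (hg : ∀ h, ∀ v ∈ V, ‖f (h * v)‖ₑ ^ 2 ≤ g h) {c : ℝ≥0∞}
    (hc : ∀ y, ∫⁻ h, g h * ‖φ (h • y)‖ₑ ^ 2 ∂μ' ≤ c) {x : K →L[ℂ] K} (hx : C.t.M x) :
    C.t.Tr (C.t.m f * (adjoint x * Ψ.f (star φ))) ≤ c * ‖x C.t.Ω‖ₑ ^ 2 := by
  have := C.t.cnt
  have := C.t.inv
  have hx' := C.M_adj hx
  have b1 : ∀ h : G', Bd fun y => φ (h⁻¹ • y) := fun h => hφ.comp (measurable_const_smul _)
  have m1 : Measurable fun p : G' × Y => g p.1⁻¹ * ‖φ (p.1⁻¹ • p.2)‖ₑ ^ 2 :=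
    (mg.comp measurable_fst.inv).mul
      ((hφ.meas.comp (measurable_fst.inv.smul measurable_snd)).enorm.pow_const 2)
  set ξ := fun γ => x (C.t.P V (C.t.Om γ))
  have key : ∀ h, C.t.Tr (C.t.P V * (C.t.π h * (C.t.m f * (adjoint x * Ψ.f (star φ))) *
      C.t.π h⁻¹)) ≤ μ' C.t.D * ∑' γ, ∫⁻ y, g h⁻¹ * ‖φ (h⁻¹ • y)‖ₑ ^ 2 ∂Ψ.ν (ξ γ) := fun h => by
    have b2 := hf.comp (measurable_const_mul h⁻¹)
    rw [C.t.conj_mul, C.t.conj_mul, C.t.cov hf, hx'.2.conj, cov h _ hφ.star, ← mul_assoc]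
    have e1 : ∀ η, ‖(C.t.P V * C.t.m fun y => f (h⁻¹ * y)) η‖ₑ ^ 2 ≤ g h⁻¹ * ‖C.t.P V η‖ₑ ^ 2 := by
      intro η
      rw [Side.P, ← C.t.m_mul (Bd.ind hV) b2, C.t.enorm_m ((Bd.ind hV).mul b2),
        C.t.enorm_m (Bd.ind hV)]
      refine le_trans (lintegral_mono fun y => ?_) (lintegral_const_mul'' _
        ((((Bd.ind hV).meas.enorm.pow_const 2).aemeasurable).mul (meas_sq _))).le
      rw [Pi.mul_apply (fun x => ‖V.indicator (1 : G' → ℂ) x‖ₑ ^ 2), ← mul_assoc]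
      refine mul_le_mul_left ?_ _
      by_cases hy : y ∈ V
      · simpa [hy] using hg h⁻¹ y hy
      · simp [hy]
    have c1 := cm_mul (cm _ (b1 h)) (cm_mul hx.1 (C.t.cm_P hV))
    have e2 : C.t.Tr (C.t.P V * (adjoint x * Ψ.f fun y => star φ (h⁻¹ • y))) =
        C.t.Tr (Ψ.f (fun y => φ (h⁻¹ • y)) * (x * C.t.P V)) := by
      rw [← C.tr_adj _ c1, adj_mul, adj_mul, C.t.adjoint_P hV, ← star_eq_adjoint (Ψ.f _),
        Ψ.star_f (b1 h), mul_assoc]
      rfl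
    refine ((lintegral_mono fun k => e1 _).trans_eq (lintegral_const_mul _ (C.t.meas_π
      (C.t.P V * (adjoint x * Ψ.f fun y => star φ (h⁻¹ • y))) _))).trans ?_
    change _ * C.t.Tr (C.t.P V * (adjoint x * _)) ≤ _
    rw [e2, C.t.Tr_eq_tsum c1, mul_left_comm, ← ENNReal.tsum_mul_left]
    refine mul_le_mul_right (ENNReal.tsum_le_tsum fun γ => ?_) _
    rw [lintegral_const_mul _ ((b1 h).meas.enorm.pow_const 2)]
    exact mul_le_mul_right (enorm_f_le Ψ (b1 h) _) _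
  rw [← ENNReal.mul_le_mul_iff_right h0 h1,
    tr_cut C.t (cm_mul (C.t.cm_m hf) (cm_mul hx'.1 (cm _ hφ.star))) hV]
  refine (lintegral_mono key).trans ?_
  rw [lintegral_const_mul _ (.ennreal_tsum fun γ => m1.lintegral_prod_right'),
    lintegral_tsum fun γ => m1.lintegral_prod_right'.aemeasurable, mul_left_comm (μ' V)]
  have e3 := C.Tr_mul_m' hx (Bd.ind hV)
  have e4 : ∫⁻ y, ‖V.indicator (1 : G' → ℂ) y‖ₑ ^ 2 ∂μ' = μ' V := by
    rw [← C.t.Tr_m (Bd.ind hV), ← C.t.Tr_P hV]; rfl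
  rw [e4, C.t.Tr_eq_tsum (cm_mul hx.1 (C.t.cm_m (Bd.ind hV)))] at e3
  rw [← e3, mul_left_comm c, ← ENNReal.tsum_mul_left (a := c)]
  refine mul_le_mul_right (ENNReal.tsum_le_tsum fun γ => ?_) _
  rw [lintegral_lintegral_swap m1.aemeasurable]
  refine (lintegral_mono fun y => (lintegral_inv_eq_self
    (fun h => g h * ‖φ (h • y)‖ₑ ^ 2)).trans_le (hc y)).trans ?_
  rw [lintegral_const]
  exact mul_le_mul_right (Ψ.fin _) _

end gd

/-- a compact set of positive measure -/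
structure Bp (μ : Measure G) (B : Set G) : Prop where
  cpt : IsCompact B
  pos : μ B ≠ 0

theorem Bp.prob {B : Set G} (h : Bp μ B) : IsProbabilityMeasure μ[|B] :=
  cond_isProbabilityMeasure_of_finite h.pos h.cpt.measure_ne_top

variable {Z : Type} [TopologicalSpace Z] [MeasurableSpace Z] [BorelSpace Z] [LocallyCompactSpace Z]
  [T2Space Z] [SecondCountableTopology Z] [MulAction G' Z] [ContinuousSMul G' Z] {V : Set G'}
  {ζ : Z} {F F' : Z → ℝ}

section wf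

/-- the window function -/
noncomputable def wf (μ' : Measure G') (V : Set G') (ζ : Z) (F : Z → ℝ) (x : G') : ℝ :=
  ∫ u, F ((x * u) • ζ) ∂μ'[|V]

theorem meas_act (ζ : Z) : Measurable fun p : G' × G' => (p.1 * p.2) • ζ :=
  (continuous_mul.smul continuous_const).measurable

theorem meas_wf (hV : Bp μ' V) (hF : Measurable F) : Measurable (wf μ' V ζ F) :=
  haveI := hV.prob
  ((hF.comp (meas_act ζ)).stronglyMeasurable.integral_prod_right').measurable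

theorem abs_wf (hV : Bp μ' V) {c : ℝ} (hc : ∀ z, |F z| ≤ c) (x : G') : |wf μ' V ζ F x| ≤ c := by
  haveI := hV.prob
  simpa [wf] using norm_integral_le_of_norm_le_const (μ := μ'[|V]) (C := c)
    (f := fun u => F ((x * u) • ζ)) (.of_forall fun u => hc _)

theorem wf_nonneg (h : ∀ z, 0 ≤ F z) (x : G') : 0 ≤ wf μ' V ζ F x := integral_nonneg fun _ => h _

theorem cc_bdd (F : C_c(Z, ℝ)) : ∃ c, 0 ≤ c ∧ ∀ z, |F z| ≤ c := by
  obtain ⟨c, hc⟩ := F.continuous.bounded_above_of_compact_support F.hasCompactSupport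
  exact ⟨max c 0, le_max_right _ _, fun z => (hc z).trans (le_max_left _ _)⟩

theorem int_wf (hV : Bp μ' V) (F : C_c(Z, ℝ)) (x : G') :
    Integrable (fun u => F ((x * u) • ζ)) μ'[|V] := by
  haveI := hV.prob
  obtain ⟨c, -, hc⟩ := cc_bdd F
  exact Integrable.of_bound (F.continuous.comp ((continuous_const_mul x).smul
    continuous_const)).aestronglyMeasurable c (.of_forall fun u => hc _)

theorem bd_wf (hV : Bp μ' V) (F : C_c(Z, ℝ)) : Bd fun x => (wf μ' V ζ F x : ℂ) :=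
  let ⟨_, _, hc⟩ := cc_bdd F
  Bd.ofReal (meas_wf hV F.continuous.measurable) (abs_wf hV hc)

theorem bd_sqrt {X : Type} [MeasurableSpace X] {f : X → ℝ} (hf : Bd fun x => (f x : ℂ)) :
    Bd fun x => ((√(f x) : ℝ) : ℂ) := by
  obtain ⟨c, hc⟩ := hf.bdd
  exact Bd.ofReal (Complex.measurable_re.comp hf.meas).sqrt (C := √c) fun x => by
    rw [abs_of_nonneg (Real.sqrt_nonneg _)]
    exact Real.sqrt_le_sqrt ((Complex.re_le_norm _).trans (hc x))

theorem inner_m_sq (S : Side μ W) {f : G → ℝ} (hf : Bd fun x => (f x : ℂ)) (h0 : ∀ x, 0 ≤ f x)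
    (η : K) : ⟪η, S.m (fun x => (f x : ℂ)) η⟫_ℂ =
      ((‖S.m (fun x => ((√(f x) : ℝ) : ℂ)) η‖ ^ 2 : ℝ) : ℂ) := by
  have h1 := bd_sqrt hf
  have e : (fun x => (f x : ℂ)) = star (fun x => ((√(f x) : ℝ) : ℂ)) * fun x => ((√(f x) : ℝ) : ℂ) :=
    funext fun x => by simp [← Complex.ofReal_mul, h0]
  rw [e, S.m_mul h1.star h1, ← S.adjoint_m h1, mul_ap, adjoint_inner_right,
    inner_self_eq_norm_sq_to_K]
  simp

theorem re_m_mono (S : Side μ W) {f f' : G → ℝ} (hf : Bd fun x => (f x : ℂ))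
    (hf' : Bd fun x => (f' x : ℂ)) (h : ∀ x, f x ≤ f' x) (η : K) :
    (⟪η, S.m (fun x => (f x : ℂ)) η⟫_ℂ).re ≤ (⟪η, S.m (fun x => (f' x : ℂ)) η⟫_ℂ).re := by
  have e : (fun x => ((f' x - f x : ℝ) : ℂ)) = (fun x => (f' x : ℂ)) - fun x => (f x : ℂ) :=
    funext fun x => by simp
  have := inner_m_sq S (f := fun x => f' x - f x) (e ▸ hf'.sub hf) (fun x => sub_nonneg.2 (h x)) η
  rw [e, S.m_sub hf' hf, sub_apply, inner_sub_right] at this
  have h2 := congrArg Complex.re this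
  rw [Complex.sub_re, Complex.ofReal_re] at h2
  nlinarith [sq_nonneg ‖S.m (fun x => ((√(f' x - f x) : ℝ) : ℂ)) η‖]

theorem im_m (S : Side μ W) {f : G → ℝ} (hf : Bd fun x => (f x : ℂ)) (η : K) :
    (⟪η, S.m (fun x => (f x : ℂ)) η⟫_ℂ).im = 0 := by
  rw [← Complex.conj_eq_iff_im, inner_conj_symm, ← adjoint_inner_right, S.adjoint_m hf]
  congr 3
  funext x
  simp

end wf

section lm

variable {ι : Type} {U : Ultrafilter ι} {ν : ι → Measure G} [∀ n, IsProbabilityMeasure (ν n)]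
  {C : Cpl μ μ' W} {ζ : ι → Z} {θ : POM Z K}

/-- `θ` is the limit of the windows -/
def Lm (C : Cpl μ μ' W) (U : Ultrafilter ι) (ν : ι → Measure G) (V : Set G') (ζ : ι → Z)
    (θ : POM Z K) : Prop :=
  ∀ F : C_c(Z, ℝ), IsL C.s U ν (fun n => C.t.m fun x => (wf μ' V (ζ n) F x : ℂ))
    (θ.f fun z => (F z : ℂ))

theorem norm_wm (C : Cpl μ μ' W) (hV : Bp μ' V) (F : C_c(Z, ℝ)) :
    ∃ c, 0 ≤ c ∧ ∀ ζ, ‖C.t.m fun x => (wf μ' V ζ F x : ℂ)‖ ≤ c :=
  (cc_bdd F).imp fun c h => ⟨h.1, fun ζ => C.t.norm_m_le (bd_wf hV F).meas h.1 fun x => by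
    simpa using abs_wf hV h.2 x⟩

theorem exists_lm (C : Cpl μ μ' W) (U : Ultrafilter ι) (ν : ι → Measure G)
    [∀ n, IsProbabilityMeasure (ν n)] (hV : Bp μ' V) (ζ : ι → Z) : ∃ θ, Lm C U ν V ζ θ := by
  have h1 : ∀ F : C_c(Z, ℝ), ∃ T, IsL C.s U ν (fun n => C.t.m fun x => (wf μ' V (ζ n) F x : ℂ)) T :=
    fun F => let ⟨c, h0, hc⟩ := norm_wm C hV F; exists_isL h0 fun n => hc _
  choose Φ hΦ using h1
  suffices ∃ θ : POM Z K, ∀ F : C_c(Z, ℝ), θ.f (fun y => (F y : ℂ)) = Φ F from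
    let ⟨θ, hθ⟩ := this; ⟨θ, fun F => by rw [hθ F]; exact hΦ F⟩
  refine POM.exists_ofCc Φ (fun F F' => (hΦ _).unique ?_) (fun c F => (hΦ _).unique ?_)
    (fun F => (hΦ F).im_eq fun n => im_m _ (bd_wf hV F))
    (fun F hF ξ => (hΦ F).re_ge (.of_forall fun n => integral_nonneg fun g => ?_))
    (fun F hF ξ => (hΦ F).re_le fun n η e => ?_)
  · convert (hΦ F).add (hΦ F') using 2 with n
    rw [← C.t.m_add (bd_wf hV F) (bd_wf hV F')]
    congr 1
    funext x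
    simp [wf, integral_add (int_wf hV F x) (int_wf hV F' x)]
  · convert (hΦ F).smul c using 2 with n
    rw [← C.t.m_smul _ (bd_wf hV F)]
    congr 1
    funext x
    simp [wf, integral_const_mul]
  · simp only [inner_m_sq _ (bd_wf hV F) (wf_nonneg hF), Complex.ofReal_re]
    exact sq_nonneg _
  · refine (re_m_mono C.t (f' := fun _ => 1) (bd_wf hV F) (Bd.const _) (fun x =>
      (le_abs_self _).trans (abs_wf hV (fun z => abs_le.2 ⟨by linarith [(hF z).1], (hF z).2⟩) x))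
      η).trans ?_
    rw [C.t.m_const, ← e]
    simp [inner_self_eq_norm_sq_to_K, ← Complex.ofReal_pow]

theorem cls_cm (θ : POM Z K) : Cls fun g => Cm W (θ.f g) where
  smul c f hf h := θ.smul c hf ▸ cm_smul c h
  add f g hf hg h h' := θ.add hf hg ▸ cm_add h h'
  lim F g c hF hg hc hl h := cm_of_weak (l := atTop) (.of_forall h) fun ξ η =>
    tendsto_const_nhds.inner (θ.tendsto_strong hF hg hc hl ξ)

theorem Lm.cm (h : Lm C U ν V ζ θ) (hV : Bp μ' V) (F : Z → ℂ) (hF : Bd F) : Cm W (θ.f F) :=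
  (cls_cm θ).of_cc (fun F => (h F).cm fun n => C.t.cm_m (bd_wf hV F)) F hF

/-- conjugation of a measure -/
noncomputable abbrev sg (S : Side μ W) (p : G) (θ : POM Z K) : POM Z K :=
  θ.cj (S.π p) (S.π p⁻¹) (S.star_π p) (pi_mul_inv p)

/-- composition with a homeomorphism -/
def ccH (F : C_c(Z, ℝ)) (r : Z ≃ₜ Z) : C_c(Z, ℝ) :=
  ⟨⟨fun z => F (r z), F.continuous.comp r.continuous⟩, F.hasCompactSupport.comp_homeomorph r⟩

theorem Lm.cov (h : Lm C U ν V ζ θ) (hV : Bp μ' V) : Cov C.t.π θ := fun k =>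
  (POM.cls_ext (sg C.t k θ) (θ.map (fun z => k⁻¹ • z) (measurable_const_smul _))).of_cc fun F => by
    refine ((h F).mul_cp (fun g => (C.comm g k).symm) fun g => (C.comm g k⁻¹).symm).unique ?_
    have e : ∀ n x, wf μ' V (ζ n) F (k⁻¹ * x) = wf μ' V (ζ n) (ccH F (.smul k⁻¹)) x := fun n x => by
      simp [wf, ccH, mul_smul]
    simp only [C.t.cov (bd_wf hV F), e]
    exact h (ccH F (.smul k⁻¹))

theorem Lm.inv (h : Lm C U ν V ζ θ) (hV : Bp μ' V) {s : G} (hs : AI U ν s) (F : Z → ℂ)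
    (hF : Bd F) : C.s.π s * θ.f F * C.s.π s⁻¹ = θ.f F :=
  (POM.cls_ext (sg C.s s θ) θ).of_cc
    (fun F => let ⟨c, _, hc⟩ := norm_wm C hV F; (h F).inv (fun n => hc _) hs) F hF

/-- moving the path and the centres of the windows -/
theorem Lm.conj (h : Lm C U ν V ζ θ) (p : G) (r : Z ≃ₜ Z) (hr : ∀ (k : G') z, r (k • z) = k • r z) :
    Lm C U (fun n => (ν n).map fun g => p * g) V (fun n => r (ζ n))
      ((sg C.s p θ).map r r.measurable) := fun F => by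
  have e : ∀ n x, wf μ' V (r (ζ n)) F x = wf μ' V (ζ n) (ccH F r) x := fun n x => by
    simp [wf, ccH, hr]
  simp only [e]
  exact (h (ccH F r)).conj p

variable {Y : Type} [MeasurableSpace Y] [MulAction G' Y] [MeasurableSMul₂ G' Y]

/-- **Descent** for a window -/
theorem tr_wf (C : Cpl μ μ' W) (hV : Bp μ' V) {Ψ : POM Y K} (cm : ∀ φ, Bd φ → Cm W (Ψ.f φ))
    (cov : Cov C.t.π Ψ) {φ : Y → ℂ} (hφ : Bd φ) (F : C_c(Z, ℝ)) (h0 : ∀ z, 0 ≤ F z) {c : ℝ≥0∞}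
    (hc : ∀ (y : Y) (z : Z), ∫⁻ h, .ofReal (F (h • z)) * ‖φ (h • y)‖ₑ ^ 2 ∂μ' ≤ c)
    {x : K →L[ℂ] K} (hx : C.t.M x) (ζ : Z) :
    C.t.Tr (C.t.m (fun x => ((√(wf μ' V ζ F x) : ℝ) : ℂ)) * (adjoint x * Ψ.f (star φ))) ≤
      (μ' V)⁻¹ * μ' (V * V) * c * ‖x C.t.Ω‖ₑ ^ 2 := by
  have m1 : Measurable fun p : G' × G' => ENNReal.ofReal (F ((p.1 * p.2) • ζ)) :=
    (F.continuous.measurable.comp (meas_act ζ)).ennreal_ofReal
  have mV := hV.cpt.measurableSet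
  have mVV := (hV.cpt.mul hV.cpt).measurableSet
  refine gd C cm cov hφ (bd_sqrt (bd_wf hV F)) mV hV.pos hV.cpt.measure_ne_top
    (g := fun h => (μ' V)⁻¹ * ∫⁻ u in V * V, .ofReal (F ((h * u) • ζ)) ∂μ')
    (m1.lintegral_prod_right'.const_mul _) (fun h v hv => ?_) (fun y => ?_) hx
  · rw [← ofReal_norm, ← ENNReal.ofReal_pow (norm_nonneg _), Complex.norm_real, Real.norm_eq_abs,
      sq_abs, Real.sq_sqrt (wf_nonneg h0 _), wf, ofReal_integral_eq_lintegral_ofReal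
      (int_wf hV F _) (.of_forall fun _ => h0 _), ProbabilityTheory.cond, lintegral_smul_measure,
      smul_eq_mul, ← lintegral_indicator mV, ← lintegral_indicator mVV,
      ← lintegral_mul_left_eq_self ((V * V).indicator _) v]
    refine mul_le_mul_right (lintegral_mono fun u => ?_) _
    by_cases hu : u ∈ V
    · simp only [indicator_of_mem hu, indicator_of_mem (mul_mem_mul hv hu), mul_assoc, le_refl]
    · simp [hu]
  · have m2 : Measurable fun h : G' => ‖φ (h • y)‖ₑ ^ 2 :=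
      (hφ.meas.comp (measurable_smul_const y)).enorm.pow_const 2
    simp_rw [mul_assoc]
    rw [lintegral_const_mul' _ _ (ENNReal.inv_ne_top.2 hV.pos)]
    refine mul_le_mul_right ?_ _
    refine (lintegral_congr fun h => (lintegral_mul_const _
      (m1.comp measurable_prodMk_left)).symm).trans_le ?_
    refine (lintegral_lintegral_swap (m1.mul (m2.comp measurable_fst)).aemeasurable).trans_le ?_
    rw [mul_comm, ← setLIntegral_const]
    exact lintegral_mono fun u => by simpa [mul_smul] using hc y (u • ζ)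

/-- **Descent** for the limit measure -/
theorem Lm.desc (h : Lm C U ν V ζ θ) (hV : Bp μ' V) {Ψ : POM Y K} (cm : ∀ φ, Bd φ → Cm W (Ψ.f φ))
    (cov : Cov C.t.π Ψ) {φ : Y → ℂ} (hφ : Bd φ) (F : C_c(Z, ℝ)) (h0 : ∀ z, 0 ≤ F z) {c : ℝ≥0∞}
    (hc : ∀ (y : Y) (z : Z), ∫⁻ h, .ofReal (F (h • z)) * ‖φ (h • y)‖ₑ ^ 2 ∂μ' ≤ c) :
    tq C.t (θ.f fun z => (F z : ℂ)) (Ψ.f (star φ)) ≤ (μ' V)⁻¹ * μ' (V * V) * c := by
  refine (h F).tq_le (fun n η => by rw [inner_m_sq _ (bd_wf hV F) (wf_nonneg h0), Complex.ofReal_re])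
    (fun n => C.t.cm_m (bd_sqrt (bd_wf hV F))) (cm _ hφ.star) (.of_forall fun n => ?_)
  refine (lintegral_mono fun g => ?_).trans_eq ((lintegral_const _).trans (by simp; rfl))
  have := tr_wf C hV (Ψ := Ψ.cj (C.s.π g⁻¹) (C.s.π g⁻¹⁻¹) (C.s.star_π _) (pi_mul_inv _))
    (fun φ hφ => C.s.conj _ (cm φ hφ) _) (fun k φ hφ => by
      rw [POM.cj_f, POM.cj_f, ← cov k φ hφ, conj_comm]) hφ F h0 hc C.t.M_one (ζ n)
  simpa [POM.cj_f, C.t.enorm_Ω, adjoint_one] using this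

end lm

end Vale.Agent.P092TH
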