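import Vale.Agent.P092TH.Mod
import Vale.Agent.P092RE.NT
import Vale.Agent.P092OM.Gau

/-!
P092 (helper7): lower and upper bounds for the limit of the windows.
-/

set_option linter.all false

open scoped InnerProductSpace ENNReal NNReal CompactlySupported Pointwise
open MeasureTheory Filter Topology ContinuousLinearMap Set ProbabilityTheory

namespace Vale.Agent.P092TH

open Vale.Agent.P092CP Vale.Agent.P092RD Vale.Agent.P092RD.POM
open Vale.Agent.P092.RC (Cm Moore)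

variable {G G' K : Type} [Group G] [TopologicalSpace G] [IsTopologicalGroup G]
  [LocallyCompactSpace G] [SecondCountableTopology G] [T2Space G] [MeasurableSpace G] [BorelSpace G]
  [Group G'] [TopologicalSpace G'] [IsTopologicalGroup G'] [LocallyCompactSpace G']
  [SecondCountableTopology G'] [T2Space G'] [MeasurableSpace G'] [BorelSpace G']
  [NormedAddCommGroup K] [InnerProductSpace ℂ K] [CompleteSpace K] {μ : Measure G}
  [μ.IsHaarMeasure] {μ' : Measure G'} [μ'.IsHaarMeasure] {W : Set (K →L[ℂ] K)}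

theorem tr_flip (C : Cpl μ μ' W) {y b : K →L[ℂ] K} (hy : Cm W y) (hb : Cm W b) (g : G) :
    C.t.Tr (y * (C.s.π g⁻¹ * adjoint b * C.s.π g)) = C.t.Tr (b * C.s.π g * adjoint y) := by
  have h1 := C.s.conj _ (C.adj_cm hb) g⁻¹
  rw [inv_inv] at h1
  rw [← C.tr_adj _ (cm_mul hy h1), adj_mul, adj_mul, adj_mul, adjoint_adjoint, C.s.adj, C.s.adj,
    inv_inv, mul_assoc, C.Tr_s_mul]

theorem tr_P_le (S : Side μ W) (S' : Side μ' W) {A B D : Set G} (hA : MeasurableSet A)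
    (hB : MeasurableSet B) (hD : MeasurableSet D) (h : D ⊆ A ∪ B) (T : K →L[ℂ] K) :
    S'.Tr (S.P D * T) ≤ S'.Tr (S.P A * T) + S'.Tr (S.P B * T) := by
  rw [Side.Tr, Side.Tr, Side.Tr, ← lintegral_add_left (S'.meas_π _ _)]
  refine lintegral_mono fun g => ?_
  simp only [mul_ap, S.enorm_P hA, S.enorm_P hB, S.enorm_P hD]
  exact (lintegral_mono_set h).trans (lintegral_union_le _ _ _)

theorem re_P (S : Side μ W) {A : Set G} (hA : MeasurableSet A) (η : K) :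
    (⟪η, S.P A η⟫_ℂ).re = ‖S.P A η‖ ^ 2 := by
  conv_lhs => rw [← S.P_sq hA, mul_ap, ← adjoint_inner_left, S.adjoint_P hA]
  exact inner_self_eq_norm_sq (𝕜 := ℂ) _

theorem inv_of_ucp {Y : Type} [TopologicalSpace Y] [CompactSpace Y] [T2Space Y]
    [SecondCountableTopology Y] [MeasurableSpace Y] [BorelSpace Y] [MulAction G' Y]
    [ContinuousConstSMul G' Y] (C : Cpl μ μ' W) {S : Set G} {Φ : C(Y, ℂ) →ₗ[ℂ] (K →L[ℂ] K)}
    (h : P092EN.Ucp Φ) (cm : ∀ f, Cm W (Φ f)) (cov : P092EN.Cov C.t.π Φ)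
    (inv : ∀ s ∈ S, ∀ f, C.s.π s * Φ f * C.s.π s⁻¹ = Φ f) :
    ∃ Ψ : POM Y K, Inv C S Ψ ∧ ∀ f : C(Y, ℂ), Ψ.f f = Φ f := by
  obtain ⟨Ψ, hΨ⟩ := exists_of_ucp h
  let j : C_c(Y, ℝ) → C(Y, ℂ) := fun g => P092.H466.toC g
  refine ⟨Ψ, ⟨(cls_cm Ψ).of_cc fun g => (hΨ (j g)).symm ▸ cm _, fun k => (cls_ext (tr C.t k Ψ)
    (Ψ.map (fun y => k⁻¹ • y) (continuous_const_smul _).measurable)).of_cc fun g => ?_,
    fun s hs => (cls_ext (tr C.s s Ψ) Ψ).of_cc fun g => ?_⟩, hΨ⟩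
  · have := cov k (j g) ((j g).comp ⟨_, continuous_const_smul k⁻¹⟩) fun y => by simp
    rwa [← hΨ, ← hΨ] at this
  · have := inv s hs (j g)
    rwa [← hΨ] at this

variable {Z : Type} [TopologicalSpace Z] [MeasurableSpace Z] [BorelSpace Z]
  [LocallyCompactSpace Z] [T2Space Z] [SecondCountableTopology Z] [MulAction G' Z]
  [ContinuousSMul G' Z] {V : Set G'}

theorem wf_le (hV : Bp μ' V) {ζ : Z} {F : Z → ℝ} (h1 : ∀ z, 0 ≤ F z ∧ F z ≤ 1) {x : G'}
    {D : Set G'} (hD : MeasurableSet D) (h0 : ∀ u ∈ V, u ∉ D → F ((x * u) • ζ) = 0) {ε : ℝ}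
    (hε : 0 ≤ ε) (h : μ' D ≤ .ofReal ε * μ' V) : wf μ' V ζ F x ≤ ε := by
  haveI := hV.prob
  refine (integral_mono_of_nonneg (.of_forall fun u => (h1 _).1) ((integrable_const (1 : ℝ)).indicator
    hD) ((ae_cond_mem hV.cpt.measurableSet).mono fun u hu => ?_)).trans ?_
  · by_cases a : u ∈ D
    · simpa [a] using (h1 _).2
    · simp [h0 u hu a, a]
  · rw [integral_indicator_const _ hD, smul_eq_mul, mul_one, Measure.real,
      cond_apply hV.cpt.measurableSet]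
    refine ENNReal.toReal_le_of_le_ofReal hε ?_
    rw [← ENNReal.div_eq_inv_mul]
    exact ENNReal.div_le_of_le_mul ((measure_mono inter_subset_right).trans h)

theorem le_wf (hV : Bp μ' V) {ζ : Z} (F : C_c(Z, ℝ)) (h1 : ∀ z, 0 ≤ F z ∧ F z ≤ 1) {x : G'}
    {D : Set G'} (hD : MeasurableSet D) (h0 : ∀ u ∈ V, u ∉ D → F ((x * u) • ζ) = 1) {ε : ℝ}
    (hε : 0 ≤ ε) (h : μ' D ≤ .ofReal ε * μ' V) : 1 - ε ≤ wf μ' V ζ F x := by
  haveI := hV.prob
  have := wf_le hV (F := fun z => 1 - F z) (fun z => ⟨sub_nonneg.2 (h1 z).2, sub_le_self _ (h1 z).1⟩)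
    hD (fun u hu a => by rw [h0 u hu a, sub_self]) hε h
  rw [wf, integral_sub (integrable_const _) (int_wf hV F x)] at this
  simp only [integral_const, probReal_univ, smul_eq_mul, mul_one] at this
  unfold wf
  linarith

variable {ι : Type} {U : Ultrafilter ι} {ν : ι → Measure G} [∀ n, IsProbabilityMeasure (ν n)]
  {C : Cpl μ μ' W} {ζ : ι → Z} {θ : POM Z K}

/-- **Lower bound** -/
theorem Lm.mass (h : Lm C U ν V ζ θ) (hV : Bp μ' V) (F : C_c(Z, ℝ)) (h1 : ∀ z, 0 ≤ F z ∧ F z ≤ 1)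
    {L : Set Z} (hL : MeasurableSet L) (h0 : ∀ z, z ∉ L → F z = 0) {A : ι → Set G'}
    (hA : ∀ n, MeasurableSet (A n)) {κ : ℝ} (hκ : ∀ᶠ n in U, ∀ x ∈ A n, κ ≤ wf μ' V (ζ n) F x)
    {a : K →L[ℂ] K} (ha : Cm W a) (h2 : C.t.Tr a ≠ ∞) {c : ℝ≥0∞}
    (hc : ∀ᶠ n in U, c ≤ ∫⁻ g, C.t.Tr (C.t.P (A n) * (C.s.π g⁻¹ * a * C.s.π g)) ∂ν n) :
    .ofReal κ * c ≤ tq C.t (θ.P L) a := by
  have p := fun n => wf_nonneg (μ' := μ') (V := V) (ζ := ζ n) fun z => (h1 z).1
  have b := fun n => bd_sqrt (bd_wf (ζ := ζ n) hV F)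
  refine ((h F).le_tq (fun n η => by rw [inner_m_sq _ (bd_wf hV F) (p n), Complex.ofReal_re])
    (fun n => C.t.cm_m (b n)) (fun n => C.t.norm_m_le (b n).meas zero_le_one fun x => ?_) ha h2
    ((hκ.and hc).mono fun n hn => (mul_le_mul_right hn.2 _).trans ?_)).trans
    (ENNReal.tsum_le_tsum fun γ => mul_le_mul_right (ENNReal.ofReal_le_ofReal ?_) _)
  · rw [Complex.norm_real, Real.norm_of_nonneg (Real.sqrt_nonneg _), Real.sqrt_le_one]
    exact (le_abs_self _).trans (abs_wf hV (fun z => abs_le.2 ⟨by linarith [(h1 z).1], (h1 z).2⟩) x)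
  · rw [← lintegral_const_mul' _ _ ENNReal.ofReal_ne_top]
    refine lintegral_mono fun g => ?_
    rw [Side.Tr, ← lintegral_const_mul' _ _ ENNReal.ofReal_ne_top]
    refine lintegral_mono fun k => ?_
    rw [mul_ap, mul_ap (C.t.m _), C.t.enorm_P (hA n), C.t.enorm_m (b n),
      ← lintegral_const_mul' _ _ ENNReal.ofReal_ne_top]
    refine (setLIntegral_mono' (hA n) fun x hx => mul_le_mul_left ?_ _).trans
      (setLIntegral_le_lintegral _ _)
    rw [← ofReal_norm, ← ENNReal.ofReal_pow (norm_nonneg _), Complex.norm_real, Real.norm_eq_abs,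
      sq_abs, Real.sq_sqrt (p n x)]
    exact ENNReal.ofReal_le_ofReal (hn.1 x hx)
  · rw [re_real θ (bd_cc F), θ.inner_P hL, Complex.ofReal_re, ← integral_indicator_one hL]
    refine integral_mono (F.continuous.integrable_of_hasCompactSupport F.hasCompactSupport)
      ((integrable_const 1).indicator hL) fun z => ?_
    by_cases a : z ∈ L
    · simpa [a] using (h1 z).2
    · simp [a, h0 z a]

/-- **Upper bound** -/
theorem Lm.upper (h : Lm C U ν V ζ θ) (hV : Bp μ' V) (F : C_c(Z, ℝ)) (h1 : ∀ z, 0 ≤ F z ∧ F z ≤ 1)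
    {L : Set Z} (hL : MeasurableSet L) (h0 : ∀ z ∈ L, F z = 1) {A : ι → Set G'}
    (hA : ∀ n, MeasurableSet (A n)) {ε : ℝ} (h2 : 0 ≤ ε)
    (hε : ∀ᶠ n in U, ∀ x, x ∉ A n → wf μ' V (ζ n) F x ≤ ε) {X : K →L[ℂ] K}
    (hX : IsL C.s U ν (fun n => C.t.P (A n)) X) (η : K) :
    (θ.ν η).real L ≤ (⟪η, X η⟫_ℂ).re + ε * ‖η‖ ^ 2 := by
  have e : ∀ (T : K →L[ℂ] K) η, (⟪η, (T + (ε : ℂ) • 1) η⟫_ℂ).re = (⟪η, T η⟫_ℂ).re + ε * ‖η‖ ^ 2 :=
    fun T η => by simp [inner_add_right, inner_smul_right, inner_self_eq_norm_sq_to_K,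
      ← Complex.ofReal_pow]
  rw [← e]
  refine le_trans ?_ ((h F).re_mono (hX.add (isL_one.smul ε)) (hε.mono fun n hn η => ?_) η)
  · rw [re_real θ (bd_cc F), ← integral_indicator_one hL]
    refine integral_mono ((integrable_const 1).indicator hL)
      (F.continuous.integrable_of_hasCompactSupport F.hasCompactSupport) fun z => ?_
    by_cases a : z ∈ L
    · simp [a, h0 z a]
    · simpa [a] using (h1 z).1
  · have e1 : (fun x => (((A n).indicator 1 x + ε : ℝ) : ℂ)) = (A n).indicator 1 + fun _ => (ε : ℂ) :=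
      funext fun x => by by_cases a : x ∈ A n <;> simp [a]
    have b := (Bd.ind (hA n)).add (Bd.const (ε : ℂ))
    refine (re_m_mono C.t (f' := fun x => (A n).indicator 1 x + ε) (bd_wf hV F) (e1 ▸ b)
      (fun x => ?_) η).trans_eq (by rw [e1, C.t.m_add (Bd.ind (hA n)) (Bd.const _), C.t.m_const]; rfl)
    by_cases a : x ∈ A n
    · have := (le_abs_self _).trans
        (abs_wf (ζ := ζ n) hV (fun z => abs_le.2 ⟨by linarith [(h1 z).1], (h1 z).2⟩) x)
      simp only [indicator_of_mem a, Pi.one_apply]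
      linarith
    · simpa [a] using hn x a

end Vale.Agent.P092TH
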