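import Vale.Agent.P092TH.Hts
import Vale.Agent.P092CP.L2
import Vale.Agent.P092EN.Defs

/-!
P092 (helper7): when distinct points of the boundary are opposite, the limit measure is a module
map over every invariant covariant measure on the boundary.
-/

set_option linter.all false

open scoped InnerProductSpace ENNReal NNReal CompactlySupported Pointwise
open MeasureTheory Filter Topology ContinuousLinearMap Set

namespace Vale.Agent.P092TH

open Vale.Agent.P092CP Vale.Agent.P092RD Vale.Agent.P092RD.POM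
open Vale.Agent.P092.RC (Cm Moore)

variable {G G' K : Type} [Group G] [TopologicalSpace G] [IsTopologicalGroup G]
  [LocallyCompactSpace G] [SecondCountableTopology G] [T2Space G] [MeasurableSpace G] [BorelSpace G]
  [Group G'] [TopologicalSpace G'] [IsTopologicalGroup G'] [LocallyCompactSpace G']
  [SecondCountableTopology G'] [T2Space G'] [MeasurableSpace G'] [BorelSpace G']
  [NormedAddCommGroup K] [InnerProductSpace ℂ K] [CompleteSpace K] {μ : Measure G}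
  [μ.IsHaarMeasure] {μ' : Measure G'} [μ'.IsHaarMeasure] {W : Set (K →L[ℂ] K)}

theorem re_real {Z : Type} [MeasurableSpace Z] (θ : POM Z K) {F : Z → ℝ}
    (hF : Bd fun z => (F z : ℂ)) (ξ : K) :
    (⟪ξ, θ.f (fun z => (F z : ℂ)) ξ⟫_ℂ).re = ∫ z, F z ∂θ.ν ξ := by
  rw [θ.rep _ hF, integral_complex_ofReal, Complex.ofReal_re]

/-- normalisation of a measure whose total mass is a scalar -/
theorem exists_unit {Z : Type} [MeasurableSpace Z] (θ : POM Z K) {c : ℂ} (h : θ.f 1 = c • 1)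
    (h0 : θ.f 1 ≠ 0) : ∃ E : POM Z K, c ≠ 0 ∧ E.f 1 = 1 ∧ ∀ F, θ.f F = c • E.f F := by
  have c0 : c ≠ 0 := fun e => h0 (by rw [h, e, zero_smul])
  have h1 : ∀ ξ, ((θ.ν ξ).real univ : ℂ) = c * ((‖ξ‖ ^ 2 : ℝ) : ℂ) := fun ξ => by
    rw [← θ.inner_P .univ, θ.P_univ, h]
    simp [inner_smul_right, inner_self_eq_norm_sq_to_K]
  obtain ⟨ξ, hξ⟩ : ∃ ξ : K, ξ ≠ 0 := by
    by_contra h2
    push Not at h2
    exact h0 (ContinuousLinearMap.ext fun ξ => h2 _)
  have h2 : 0 < ‖ξ‖ ^ 2 := by positivity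
  obtain ⟨r, r0, rfl⟩ : ∃ r : ℝ, 0 ≤ r ∧ c = r := ⟨(θ.ν ξ).real univ / ‖ξ‖ ^ 2, by positivity, by
    rw [Complex.ofReal_div, h1, mul_div_cancel_right₀ _ (Complex.ofReal_ne_zero.2 h2.ne')]⟩
  have r1 : r ≠ 0 := Complex.ofReal_ne_zero.1 c0
  refine ⟨⟨fun F => (r : ℂ)⁻¹ • θ.f F, fun ξ => ENNReal.ofReal r⁻¹ • θ.ν ξ, fun ξ => ?_,
    fun F hF ξ => ?_⟩, c0, ?_, fun F => ?_⟩
  · have h3 : (θ.ν ξ).real univ = r * ‖ξ‖ ^ 2 := by exact_mod_cast h1 ξ
    rw [Measure.smul_apply, ← ofReal_measureReal (measure_ne_top _ _), h3, smul_eq_mul,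
      ← ENNReal.ofReal_mul (inv_nonneg.2 r0), inv_mul_cancel_left₀ r1,
      ENNReal.ofReal_pow (norm_nonneg _), ofReal_norm]
  · rw [smul_apply, inner_smul_right, θ.rep F hF, integral_smul_measure,
      ENNReal.toReal_ofReal (inv_nonneg.2 r0)]
    simp
  · simp only [h, smul_smul, inv_mul_cancel₀ c0, one_smul]
  · simp only [smul_smul, mul_inv_cancel₀ c0, one_smul]

variable {Z Y : Type} [TopologicalSpace Z] [MeasurableSpace Z] [BorelSpace Z]
  [LocallyCompactSpace Z] [T2Space Z] [SecondCountableTopology Z] [MulAction G' Z]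
  [ContinuousSMul G' Z] {V : Set G'} {ι : Type} {U : Ultrafilter ι} {ν : ι → Measure G}
  [∀ n, IsProbabilityMeasure (ν n)] {C : Cpl μ μ' W} {ζ : ι → Z} {θ : POM Z K} {S : Set G}

theorem Lm.isInv (h : Lm C U ν V ζ θ) (hV : Bp μ' V) (hS : ∀ s ∈ S, AI U ν s) : Inv C S θ :=
  ⟨h.cm hV, h.cov hV, fun s hs => h.inv hV (hS s hs)⟩

theorem exists_bump {L O : Set Z} (hL : IsCompact L) (hO : IsOpen O) (h : L ⊆ O) :
    ∃ (L' : Set Z) (F : C_c(Z, ℝ)), IsCompact L' ∧ L' ⊆ O ∧ (∀ z ∈ L, F z = 1) ∧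
      (∀ z, z ∉ L' → F z = 0) ∧ ∀ z, 0 ≤ F z ∧ F z ≤ 1 := by
  obtain ⟨L', h1, h2, h3⟩ := exists_compact_between hL hO h
  obtain ⟨F, h4, h5, h6, h7⟩ := exists_continuous_one_zero_of_isCompact hL
    isOpen_interior.isClosed_compl (disjoint_compl_right_iff_subset.2 h2)
  exact ⟨L', ⟨F, h6⟩, h1, h3, h4, fun z hz => h5 fun h => hz (interior_subset h), h7⟩

variable [MeasurableSpace Y] [MulAction G' Y] [MeasurableSMul₂ G' Y] {Ψ : POM Y K}

/-- **Descent**, for sets -/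
theorem Lm.desc_set (h : Lm C U ν V ζ θ) (hV : Bp μ' V) (cm : ∀ φ, Bd φ → Cm W (Ψ.f φ))
    (cov : Cov C.t.π Ψ) {A : Set Y} (hA : MeasurableSet A) {L : Set Z} (hL : MeasurableSet L)
    {c : ℝ≥0∞} (hc : ∀ (y : Y) (z : Z), μ' {k | k • y ∈ A ∧ k • z ∈ L} ≤ c) (F : C_c(Z, ℝ))
    (h0 : ∀ z, z ∉ L → F z = 0) (h1 : ∀ z, 0 ≤ F z ∧ F z ≤ 1) :
    tq C.t (θ.f fun z => (F z : ℂ)) (Ψ.P A) ≤ (μ' V)⁻¹ * μ' (V * V) * c := by
  have := h.desc hV cm cov (Bd.ind hA) F (fun z => (h1 z).1) (c := c) fun y z => by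
    refine le_trans ?_ (hc y z)
    rw [← lintegral_indicator_one (s := {k : G' | k • y ∈ A ∧ k • z ∈ L})
      ((measurable_smul_const y hA).inter ((continuous_id.smul continuous_const).measurable hL))]
    refine lintegral_mono fun k => ?_
    by_cases a : k • y ∈ A
    · by_cases b : k • z ∈ L
      · simpa [a, b] using (h1 _).2
      · simp [h0 _ b]
    · simp [a]
  rwa [← Ψ.star_f (Bd.ind hA), ← POM.P, Ψ.star_P hA] at this

theorem Lm.orth [NoncompactSpace G] (h : Lm C U ν V ζ θ) (hV : Bp μ' V) (hS : Moore S)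
    (hI : ∀ s ∈ S, AI U ν s) (hΨ : Inv C S Ψ) {A : Set Y} (hA : MeasurableSet A) {O : Set Z}
    (hO : IsOpen O) (pr : ∀ L, IsCompact L → L ⊆ O → ∃ c : ℝ≥0∞, c ≠ ∞ ∧
      ∀ (y : Y) (z : Z), μ' {k | k • y ∈ A ∧ k • z ∈ L} ≤ c) {F : Z → ℂ} (hF : Bd F)
    (h0 : ∀ z, z ∉ O → F z = 0) : θ.f F * Ψ.P A = 0 := by
  refine ContinuousLinearMap.ext fun η => ?_
  have h1 : θ.ν (Ψ.P A η) O = 0 := by
    rw [hO.measure_eq_iSup_isCompact]
    simp only [ENNReal.iSup_eq_zero]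
    intro L hLO hL
    obtain ⟨L', f, h2, h3, h4, h5, h6⟩ := exists_bump hL hO hLO
    obtain ⟨c, c0, hc⟩ := pr L' h2 h3
    have h7 := h.desc_set hV hΨ.cm hΨ.cov hA h2.measurableSet hc f h5 h6
    have cT := cm_mul (h.cm hV _ (bd_cc f)) (hΨ.cm _ (Bd.ind hA))
    have i1 := fun ξ => f.continuous.integrable_of_hasCompactSupport (μ := θ.ν ξ)
      f.hasCompactSupport
    have h8 := C.hs_erg hS cT (ne_top_of_le_ne_top (ENNReal.mul_ne_top (ENNReal.mul_ne_top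
      (ENNReal.inv_ne_top.2 hV.pos) (hV.cpt.mul hV.cpt).measure_ne_top) c0)
      ((tr_le_tq C.t cT fun η => (θ.norm_sq_le (bd_cc f) _).trans (by
        rw [re_real θ (bd_cc f)]
        refine integral_mono (bd_int_sq (bd_cc f) _) (i1 _) fun z => ?_
        simp only [Complex.norm_real, Real.norm_eq_abs, sq_abs]
        nlinarith [(h6 z).1, (h6 z).2])).trans h7)) fun s hs => comm_of_conj (by
          rw [C.s.conj_mul, h.inv hV (hI s hs) _ (bd_cc f), hΨ.inv s hs _ (Bd.ind hA)])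
    have h9 := re_real θ (bd_cc f) (Ψ.P A η)
    rw [POM.P, ← mul_ap, h8, zero_apply, inner_zero_right, Complex.zero_re] at h9
    have := (integral_eq_zero_iff_of_nonneg (fun z => (h6 z).1) (i1 _)).1 h9.symm
    exact measure_mono_null (fun z hz => by simp [h4 z hz]) this
  have := θ.norm_sq_le hF (Ψ.P A η)
  rw [integral_congr_ae (g := fun _ => 0) ((measure_eq_zero_iff_ae_notMem.1 h1).mono
    fun z hz => by simp [h0 z hz]), integral_zero] at this
  exact norm_eq_zero.1 (pow_eq_zero_iff two_ne_zero |>.1 (le_antisymm this (sq_nonneg _)))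

variable [TopologicalSpace Y] [BorelSpace Y] [TopologicalSpace.PseudoMetrizableSpace Y]
  {dir : Z → Y}

/-- **The module property** -/
theorem Lm.mod [NoncompactSpace G] (h : Lm C U ν V ζ θ) (hV : Bp μ' V) (hS : Moore S)
    (hI : ∀ s ∈ S, AI U ν s) (hΨ : Inv C S Ψ) (h1 : Ψ.f 1 = 1) (hd : Continuous dir)
    (pr : ∀ A L, IsClosed A → IsCompact L → (∀ z ∈ L, dir z ∉ A) → ∃ c : ℝ≥0∞, c ≠ ∞ ∧
      ∀ (y : Y) (z : Z), μ' {k | k • y ∈ A ∧ k • z ∈ L} ≤ c) {F : Z → ℂ} (hF : Bd F) (φ : Y → ℂ)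
    (hφ : Bd φ) : θ.f F * Ψ.f φ = θ.f (φ ∘ dir * F) := by
  have b := fun φ (hφ : Bd φ) => (bd_comp hφ hd.measurable).mul hF
  have key : ∀ A, IsClosed A → ∀ F, Bd F → (∀ z, dir z ∈ A → F z = 0) → θ.f F * Ψ.P A = 0 :=
    fun A hA F hF h0 => h.orth hV hS hI hΨ hA.measurableSet (hA.preimage hd).isOpen_compl
      (fun L hL e => pr A L hA hL e) hF fun z hz => h0 z (not_not.1 hz)
  have cls : Cls fun φ => θ.f F * Ψ.f φ = θ.f (φ ∘ dir * F) := by
    refine ⟨fun c φ hφ e => ?_, fun φ φ' hφ hφ' e e' => ?_, fun Φ φ c hΦ hφ hc hl e => ?_⟩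
    · rw [Ψ.smul c hφ, mul_smul_comm, e, ← θ.smul c (b φ hφ), ← smul_mul_assoc]; rfl
    · rw [Ψ.add hφ hφ', mul_add, e, e', ← θ.add (b φ hφ) (b φ' hφ'), ← add_mul]; rfl
    · obtain ⟨d, d0, hd⟩ := hF.nonneg
      refine ContinuousLinearMap.ext fun ξ => tendsto_nhds_unique (((θ.f F).continuous.tendsto
        _).comp (Ψ.tendsto_strong hΦ hφ hc hl ξ)) ((θ.tendsto_strong (C := c * d)
          (fun n => b _ (hΦ n)) (b φ hφ) (fun n z => ?_) (fun z => (hl _).mul_const _) ξ).congr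
            fun n => (ap_eq (e n) ξ).symm)
      rw [Pi.mul_apply, norm_mul]
      exact mul_le_mul (hc n _) (hd z) (norm_nonneg _) ((norm_nonneg _).trans (hc n (dir z)))
  refine cls.of_pi (BorelSpace.measurable_eq.trans borel_eq_generateFrom_isClosed)
    isPiSystem_isClosed (by rw [h1, mul_one]; exact congrArg _ (one_mul F).symm)
    (fun A hA => ?_) φ hφ
  have mA := (hA : IsClosed A).measurableSet
  have b1 := b _ (Bd.ind mA)
  obtain ⟨s, h2, -, h3, h4⟩ : ∃ s : ℕ → Set Y, (∀ n, IsClosed (s n)) ∧ (∀ n, s n ⊆ Aᶜ) ∧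
      ⋃ n, s n = Aᶜ ∧ Monotone s := by
    letI := TopologicalSpace.pseudoMetrizableSpacePseudoMetric Y
    exact (hA : IsClosed A).isOpen_compl.exists_iUnion_isClosed
  have h5 : θ.f (A.indicator 1 ∘ dir * F) * Ψ.P Aᶜ = 0 := ContinuousLinearMap.ext fun ξ => by
    refine tendsto_nhds_unique (((θ.f _).continuous.tendsto _).comp
      (h3 ▸ Ψ.tendsto_P_iUnion (fun n => (h2 n).measurableSet) h4 ξ))
      (tendsto_const_nhds.congr fun n => (ap_eq (key _ (h2 n) _ b1 fun z hz => ?_) ξ).symm)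
    have : dir z ∈ Aᶜ := h3 ▸ mem_iUnion_of_mem n hz
    simp [notMem_of_mem_compl this]
  have h6 := key A hA _ (hF.sub b1) fun z hz => by simp [hz]
  rw [θ.sub hF b1, sub_mul, sub_eq_zero] at h6
  rw [← POM.P, h6, ← add_zero (_ * _), ← h5, ← mul_add, ← Ψ.P_union mA mA.compl disjoint_compl_right,
    union_compl_self, Ψ.P_univ, h1, mul_one]

/-- **The boundary calculus and its uniqueness** -/
theorem Lm.exists_E [NoncompactSpace G] (h : Lm C U ν V ζ θ) (hV : Bp μ' V) (hS : Moore S)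
    (hI : ∀ s ∈ S, AI U ν s) (hd : Continuous dir) (e : ∀ (k : G') z, dir (k • z) = k • dir z)
    (pr : ∀ A L, IsClosed A → IsCompact L → (∀ z ∈ L, dir z ∉ A) → ∃ c : ℝ≥0∞, c ≠ ∞ ∧
      ∀ (y : Y) (z : Z), μ' {k | k • y ∈ A ∧ k • z ∈ L} ≤ c) (h0 : θ.f 1 ≠ 0) :
    ∃ E : POM Y K, E.IsP ∧ Inv C S E ∧
      (∀ φ F, Bd φ → Bd F → θ.f (φ ∘ dir * F) = E.f φ * θ.f F) ∧
      ∀ Ψ : POM Y K, Inv C S Ψ → Ψ.f 1 = 1 → ∀ φ, Bd φ → Ψ.f φ = E.f φ := by
  have i0 := (h.isInv hV hI).map hd.measurable e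
  obtain ⟨c, hc⟩ := i0.one hS
  obtain ⟨E, c0, h1, h2⟩ := exists_unit _ hc h0
  have h3 : ∀ φ, E.f φ = c⁻¹ • (θ.map dir hd.measurable).f φ := fun φ => by
    rw [h2, smul_smul, inv_mul_cancel₀ c0, one_smul]
  have iE : Inv C S E := ⟨fun φ hφ => h3 φ ▸ cm_smul _ (i0.cm φ hφ), fun k φ hφ => by
    rw [h3, h3, mul_smul_comm, smul_mul_assoc, i0.cov k φ hφ], fun s hs φ hφ => by
    rw [h3, mul_smul_comm, smul_mul_assoc, i0.inv s hs φ hφ]⟩
  have h4 := fun F hF => h.mod hV hS hI iE h1 hd pr (F := F) hF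
  refine ⟨E, ⟨h1, fun φ φ' hφ hφ' => ?_⟩, iE, fun φ F hφ hF => ?_, fun Ψ hΨ h5 φ hφ => ?_⟩
  · rw [h3 φ, smul_mul_assoc, map_f, h4 _ (bd_comp hφ hd.measurable) _ hφ', h3, mul_comm φ]
    rfl
  · have := congrArg star (h4 _ hF.star _ hφ.star)
    rw [star_mul, E.star_f hφ.star, θ.star_f hF.star,
      θ.star_f ((bd_comp hφ.star hd.measurable).mul hF.star), star_star, star_star] at this
    rw [this]
    congr 1
    ext z
    simp
  · have := h.mod hV hS hI hΨ h5 hd pr Bd.one φ hφ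
    rw [show θ.f 1 = c • 1 from hc, mul_one, smul_mul_assoc, one_mul] at this
    rw [h3, map_f, ← this, smul_smul, inv_mul_cancel₀ c0, one_smul]

/-- the measure of a unital completely positive map -/
theorem exists_of_ucp {Y : Type} [TopologicalSpace Y] [CompactSpace Y] [T2Space Y]
    [SecondCountableTopology Y] [MeasurableSpace Y] [BorelSpace Y]
    {Φ : C(Y, ℂ) →ₗ[ℂ] (K →L[ℂ] K)} (h : P092EN.Ucp Φ) :
    ∃ Ψ : POM Y K, ∀ f : C(Y, ℂ), Ψ.f f = Φ f := by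
  let j : C(Y, ℝ) → C(Y, ℂ) := P092.H466.toC
  have pos : ∀ g : C(Y, ℝ), (∀ y, 0 ≤ g y) → ∀ ξ, 0 ≤ (⟪ξ, Φ (j g) ξ⟫_ℂ).re := fun g hg ξ => by
    have := h.cp 1 (fun _ => j ⟨fun y => √(g y), by fun_prop⟩) fun _ => ξ
    simp only [Fin.sum_univ_one] at this
    convert this using 5
    ext y
    simp [j, ← Complex.ofReal_mul, hg]
  obtain ⟨Ψ, hΨ⟩ := exists_ofCc (fun g : C_c(Y, ℝ) => Φ (j g)) (fun g g' => by
      rw [← map_add]; congr 1; ext y; simp [j]) (fun c g => by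
      rw [← map_smul]; congr 1; ext y; simp [j]) (fun g ξ => by
      rw [← Complex.conj_eq_iff_im, inner_conj_symm, ← adjoint_inner_right, h.adj,
        P092.H466.star_toC]) (fun g hg => pos _ hg) fun g hg ξ => by
      have := pos (1 - g) (fun y => by simpa using (hg y).2) ξ
      rw [show j (1 - g) = 1 - j g by ext y; simp [j], map_sub, h.one] at this
      simpa [inner_sub_right, inner_self_eq_norm_sq_to_K, ← Complex.ofReal_pow] using this
  refine ⟨Ψ, fun f => ?_⟩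
  let a : C_c(Y, ℝ) := ⟨⟨fun y => (f y).re, by fun_prop⟩, .of_compactSpace _⟩
  let b : C_c(Y, ℝ) := ⟨⟨fun y => (f y).im, by fun_prop⟩, .of_compactSpace _⟩
  have e : f = j a + Complex.I • j b := by ext y; simp [j, a, b, mul_comm Complex.I]
  conv_rhs => rw [e, map_add, map_smul, ← hΨ, ← hΨ, ← Ψ.smul _ (bd_cc b),
    ← Ψ.add (bd_cc a) ((bd_cc b).smul _)]
  congr 1
  ext y
  simp [a, b, mul_comm Complex.I]

end Vale.Agent.P092TH
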