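import Vale.Agent.P092TH.Win
import Vale.Agent.P092SB.Lift
import Vale.Agent.P092RD.Agr

/-!
P092 (helper7): the heights. From a boundary calculus `E` and a measure on the cone over it to a
projection valued measure on the cone.
-/

set_option linter.all false

open scoped InnerProductSpace ENNReal NNReal
open MeasureTheory Filter Topology ContinuousLinearMap Set

namespace Vale.Agent.P092TH

open Vale.Agent.P092CP Vale.Agent.P092RD Vale.Agent.P092RD.POM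
open Vale.Agent.P092.RC (Cm Moore)

variable {G G' K : Type} [Group G] [TopologicalSpace G] [IsTopologicalGroup G]
  [LocallyCompactSpace G] [SecondCountableTopology G] [T2Space G] [MeasurableSpace G] [BorelSpace G]
  [Group G'] [TopologicalSpace G'] [IsTopologicalGroup G'] [LocallyCompactSpace G']
  [SecondCountableTopology G'] [T2Space G'] [MeasurableSpace G'] [BorelSpace G']
  [NormedAddCommGroup K] [InnerProductSpace ℂ K] [CompleteSpace K] {μ : Measure G}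
  [μ.IsHaarMeasure] {μ' : Measure G'} [μ'.IsHaarMeasure] {W : Set (K →L[ℂ] K)}
  {Y Z : Type} [MeasurableSpace Y] [MeasurableSpace Z] [MulAction G' Y] [MulAction G' Z]

/-- a covariant measure with values in `B`, invariant under `S` -/
structure Inv (C : Cpl μ μ' W) (S : Set G) (θ : POM Z K) : Prop where
  cm : ∀ F, Bd F → Cm W (θ.f F)
  cov : Cov C.t.π θ
  inv : ∀ s ∈ S, ∀ F, Bd F → C.s.π s * θ.f F * C.s.π s⁻¹ = θ.f F

theorem Inv.map {C : Cpl μ μ' W} {S : Set G} {θ : POM Z K} (h : Inv C S θ) {r : Z → Y}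
    (mr : Measurable r) (hr : ∀ (k : G') z, r (k • z) = k • r z) : Inv C S (θ.map r mr) :=
  ⟨fun F hF => h.cm _ (hF.comp mr), fun k F hF => (h.cov k _ (hF.comp mr)).trans (by
    simp only [map_f, Function.comp_def, hr]), fun s hs F hF => h.inv s hs _ (hF.comp mr)⟩

theorem Inv.tr [MeasurableConstSMul G' Z] {C : Cpl μ μ' W} {S : Set G} {θ : POM Z K} (h : Inv C S θ) {p : G}
    (hp : ∀ s ∈ S, p⁻¹ * s * p ∈ S) : Inv C S (tr C.s p θ) :=
  ⟨fun F hF => C.s.conj _ (h.cm F hF) p, cov_tr C p h.cov, fun s hs F hF => by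
    rw [tr_f]
    conv_rhs => rw [← h.inv _ (hp s hs) F hF]
    rw [C.s.conj_conj, C.s.conj_conj]
    congr 3 <;> group⟩

theorem Inv.one {C : Cpl μ μ' W} {S : Set G} {θ : POM Z K} (h : Inv C S θ) (hS : Moore S) :
    ∃ c : ℂ, θ.f 1 = c • 1 :=
  C.erg hS ⟨h.cm 1 Bd.one, cp_of_conj fun k => h.cov k 1 Bd.one⟩ fun s hs =>
    comm_of_conj (h.inv s hs 1 Bd.one)

/-- the operators which transform by the multiplier `κ` -/
def Xm (C : Cpl μ μ' W) (S : Set G) (E : POM Y K) (κ : G' → Y → ℂ) : Set (K →L[ℂ] K) :=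
  {a | Cm W a ∧ (∀ φ, Bd φ → a * E.f φ = E.f φ * a) ∧ (∀ s ∈ S, C.s.π s * a * C.s.π s⁻¹ = a) ∧
    ∀ k, C.t.π k * a * C.t.π k⁻¹ = E.f (κ k) * a}

section xm

variable {C : Cpl μ μ' W} {S : Set G} {E : POM Y K} {κ κ' : G' → Y → ℂ} {a b : K →L[ℂ] K}

theorem Xm.mul (hE : E.IsP) (bκ : ∀ k, Bd (κ k)) (bκ' : ∀ k, Bd (κ' k)) (ha : a ∈ Xm C S E κ)
    (hb : b ∈ Xm C S E κ') : a * b ∈ Xm C S E (κ * κ') :=
  ⟨cm_mul ha.1 hb.1, fun φ hφ => by rw [mul_assoc, hb.2.1 φ hφ, ← mul_assoc, ha.2.1 φ hφ, mul_assoc],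
    fun s hs => by rw [C.s.conj_mul, ha.2.2.1 s hs, hb.2.2.1 s hs], fun k => by
      rw [C.t.conj_mul, ha.2.2.2, hb.2.2.2, Pi.mul_apply, hE.mul _ _ (bκ k) (bκ' k), mul_assoc,
        ← mul_assoc a, ha.2.1 _ (bκ' k)]
      simp only [mul_assoc]⟩

theorem Xm.star (bκ : ∀ k, Bd (κ k)) (ha : a ∈ Xm C S E κ) : star a ∈ Xm C S E (star κ) := by
  have h1 : ∀ φ, Bd φ → Star.star a * E.f φ = E.f φ * Star.star a := fun φ hφ => by
    have := congrArg Star.star (ha.2.1 _ hφ.star)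
    rw [star_mul, star_mul, E.star_f hφ.star, star_star] at this
    exact this.symm
  refine ⟨C.adj_cm ha.1, h1, fun s hs => ?_, fun k => ?_⟩
  · rw [star_eq_adjoint, ← C.s.conj_adj, ha.2.2.1 s hs]
  · rw [star_eq_adjoint, ← C.t.conj_adj, ha.2.2.2, ← star_eq_adjoint, star_mul, E.star_f (bκ k),
      h1 _ (bκ k).star]
    rfl

theorem Xm.smul (c : ℂ) (ha : a ∈ Xm C S E κ) : c • a ∈ Xm C S E κ :=
  ⟨cm_smul c ha.1, fun φ hφ => by rw [smul_mul_assoc, ha.2.1 φ hφ, mul_smul_comm],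
    fun s hs => by rw [mul_smul_comm, smul_mul_assoc, ha.2.2.1 s hs],
    fun k => by rw [mul_smul_comm, smul_mul_assoc, ha.2.2.2, mul_smul_comm]⟩

theorem Xm.zero (hS : Moore S) (hE : E.IsP) (ha : a ∈ Xm C S E 1) : ∃ c : ℂ, a = c • 1 :=
  C.erg hS ⟨ha.1, cp_of_conj fun k => by rw [ha.2.2.2, Pi.one_apply, hE.one, one_mul]⟩
    fun s hs => comm_of_conj (ha.2.2.1 s hs)

theorem Xm.conj (bκ : ∀ k, Bd (κ k)) (ha : a ∈ Xm C S E κ) {p : G}
    (hp : ∀ s ∈ S, p⁻¹ * s * p ∈ S) (hE : ∀ φ, Bd φ → C.s.π p * E.f φ * C.s.π p⁻¹ = E.f φ) :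
    C.s.π p * a * C.s.π p⁻¹ ∈ Xm C S E κ :=
  ⟨C.s.conj _ ha.1 p, fun φ hφ => by
    rw [← hE φ hφ, ← C.s.conj_mul, ← C.s.conj_mul, ha.2.1 φ hφ], fun s hs => by
    conv_rhs => rw [← ha.2.2.1 _ (hp s hs)]
    rw [C.s.conj_conj, C.s.conj_conj]
    congr 3 <;> group, fun k => by
    rw [← conj_comm, ha.2.2.2, C.s.conj_mul, hE _ (bκ k)]⟩

end xm

/-- a cone with one height over `Y` -/
structure Cn (G' Y Z : Type) [Group G'] [MeasurableSpace Y] [MeasurableSpace Z] [MulAction G' Y]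
    [MulAction G' Z] where
  /-- the direction -/
  dir : Z → Y
  /-- the height -/
  ht : Z → ℝ
  /-- the point with given direction and height -/
  e : Y × ℝ → Z
  /-- the cocycle -/
  co : G' → Y → ℝ
  mdir : Measurable dir
  mht : Measurable ht
  me : Measurable e
  mco : ∀ k, Measurable (co k)
  dir_e : ∀ p, dir (e p) = p.1
  ht_e : ∀ p, ht (e p) = p.2
  e_dir : ∀ z, e (dir z, ht z) = z
  dir_smul : ∀ (k : G') z, dir (k • z) = k • dir z
  ht_smul : ∀ (k : G') z, ht (k • z) = co k (dir z) + ht z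

theorem ex_add' (s t : ℝ) (D : Y → ℝ) : ex (s + t) D = ex s D * ex t D := by
  ext y
  simp [ex, add_mul, Complex.exp_add]

theorem ex_zero (D : Y → ℝ) : ex 0 D = 1 := by
  ext y
  simp [ex]

theorem cont_ex (θ : POM Y K) {D : Y → ℝ} (hD : Measurable D) (ξ : K) :
    Continuous fun t => θ.f (ex t D) ξ := continuous_iff_continuousAt.2 fun t =>
  θ.tendsto_strong (fun s => bd_ex s hD) (bd_ex t hD) (fun s y => (norm_ex s D y).le)
    (fun y => (by unfold ex; fun_prop : Continuous fun s => ex s D y).tendsto t) ξ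

namespace Cn

variable (c : Cn G' Y Z)

/-- the translation of the height -/
def sh (k : ℝ) (z : Z) : Z := c.e (c.dir z, c.ht z + k)

theorem msh (k : ℝ) : Measurable (c.sh k) := c.me.comp (c.mdir.prodMk (c.mht.add_const k))

/-- the graded family -/
def X (C : Cpl μ μ' W) (S : Set G) (E : POM Y K) (t : ℝ) : Set (K →L[ℂ] K) :=
  Xm C S E fun k => ex t (c.co k⁻¹)

theorem tw {θ θ' : POM Z K} (hθ : θ.IsP) (hθ' : θ'.IsP) {T : K →L[ℂ] K}
    (h1 : ∀ φ, Bd φ → T * θ.f (φ ∘ c.dir) = θ'.f (φ ∘ c.dir) * T)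
    (h2 : ∀ t, T * θ.f (ex t c.ht) = θ'.f (ex t c.ht) * T) (F : Z → ℂ) (hF : Bd F) :
    T * θ.f F = θ'.f F * T := by
  have m := c.mdir.prodMk c.mht
  have h3 := fun g hg => tw_of_ex (θ.map _ c.mht) (θ'.map _ c.mht) T h2 (g := g) hg
  have h4 := (cls_tw (θ.map _ m) (θ'.map _ m) T).of_pi generateFrom_prod.symm isPiSystem_prod
    (h1 1 Bd.one) (by
      rintro _ ⟨A, hA, B, hB, rfl⟩
      change T * θ.P (c.dir ⁻¹' A ∩ c.ht ⁻¹' B) = θ'.P (c.dir ⁻¹' A ∩ c.ht ⁻¹' B) * T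
      rw [hθ.P_inter (c.mdir hA) (c.mht hB), hθ'.P_inter (c.mdir hA) (c.mht hB), ← mul_assoc,
        mul_assoc _ _ T]
      exact (congrArg (· * _) (h1 _ (Bd.ind hA))).trans
        ((mul_assoc _ _ _).trans (congrArg (_ * ·) (h3 _ (Bd.ind hB))))) _ (hF.comp c.me)
  simp only [map_f, Function.comp_def, c.e_dir] at h4
  exact h4

theorem ext {θ θ' : POM Z K} (hθ : θ.IsP) (hθ' : θ'.IsP)
    (h1 : ∀ φ, Bd φ → θ.f (φ ∘ c.dir) = θ'.f (φ ∘ c.dir))
    (h2 : ∀ t, θ.f (ex t c.ht) = θ'.f (ex t c.ht)) (F : Z → ℂ) (hF : Bd F) : θ.f F = θ'.f F := by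
  simpa using c.tw hθ hθ' (T := 1) (by simpa using h1) (by simpa using h2) F hF

variable {C : Cpl μ μ' W} {S : Set G} {E : POM Y K} {θ θ₀ : POM Z K}

theorem gr (hS : Moore S) (hE : E.IsP) : P092SB.Gr (c.X C S E) where
  mul s t a b ha hb := by
    have := Xm.mul hE (fun k => bd_ex s (c.mco _)) (fun k => bd_ex t (c.mco _)) ha hb
    simp only [X, ex_add']
    exact this
  star t a ha := by
    have := Xm.star (fun k => bd_ex t (c.mco _)) ha
    simp only [X, ← star_ex]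
    exact this
  smul t z a ha := Xm.smul z ha
  zero a ha := Xm.zero hS hE (by simp only [X, ex_zero] at ha; exact ha)

theorem ex_smul (t : ℝ) (k : G') :
    (fun z => ex t c.ht (k • z)) = ex t (c.co k) ∘ c.dir * ex t c.ht := by
  ext z
  simp [ex, c.ht_smul, mul_add, add_mul, Complex.exp_add]

theorem mem_X (h₀ : Inv C S θ₀)
    (mod : ∀ φ F, Bd φ → Bd F → θ₀.f (φ ∘ c.dir * F) = E.f φ * θ₀.f F) (t : ℝ) :
    θ₀.f (ex t c.ht) ∈ c.X C S E t := by
  have b := fun t => bd_ex t c.mht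
  refine ⟨h₀.cm _ (b t), fun φ hφ => ?_, fun s hs => h₀.inv s hs _ (b t), fun k => ?_⟩
  · have := congrArg star (mod _ _ hφ.star (b (-t)))
    rw [star_mul, E.star_f hφ.star, θ₀.star_f (b _), star_ex, neg_neg, star_star,
      θ₀.star_f ((bd_comp hφ.star c.mdir).mul (b _)), star_mul', star_ex, neg_neg] at this
    rw [← this, ← mod _ _ hφ (b t)]
    congr 2
    ext z
    simp
  · rw [h₀.cov k _ (b t), c.ex_smul, mod _ _ (bd_ex t (c.mco _)) (b t)]

/-- the projection valued measure on the cone -/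
structure Pv (C : Cpl μ μ' W) (S : Set G) (E : POM Y K) (θ : POM Z K) : Prop where
  isP : θ.IsP
  inv : Inv C S θ
  dir : ∀ φ, Bd φ → θ.f (φ ∘ c.dir) = E.f φ
  mem : ∀ t, θ.f (ex t c.ht) ∈ c.X C S E t
  gen : ∀ t, ∀ a ∈ c.X C S E t, ∃ z : ℂ, a = z • θ.f (ex t c.ht)

theorem nontriv (S : Side μ W) : Nontrivial K :=
  ⟨S.Ω, 0, fun h => by simpa [h] using S.nΩ⟩

/-- **The lift.** -/
theorem exists_pv [StandardBorelSpace Y] [Nonempty Y] [MeasurableConstSMul G' Y]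
    [MeasurableConstSMul G' Z] (hS : Moore S)
    (hE : E.IsP) (iE : Inv C S E) (h₀ : Inv C S θ₀)
    (mod : ∀ φ F, Bd φ → Bd F → θ₀.f (φ ∘ c.dir * F) = E.f φ * θ₀.f F) (h1 : θ₀.f 1 ≠ 0) :
    ∃ θ, c.Pv C S E θ := by
  have := nontriv C.s
  obtain ⟨V, hV, h2⟩ := (c.gr hS hE).lift_op one_pos (W := fun t => θ₀.f (ex t c.ht))
    (fun t _ => c.mem_X h₀ mod t) (fun ξ => (cont_ex θ₀ c.mht ξ).continuousOn) (by rwa [ex_zero])
  obtain ⟨J, hJ, h3, h4⟩ := P092SB.joint_op hE hV fun A t hA => ((h2 t).1.2.1 _ (Bd.ind hA)).symm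
  have e1 : ∀ φ, Bd φ → (J.map _ c.me).f (φ ∘ c.dir) = E.f φ := fun φ hφ => by
    rw [← h3 φ hφ, map_f]; simp only [Function.comp_def, c.dir_e]
  have e2 : ∀ t, (J.map _ c.me).f (ex t c.ht) = V t := fun t => by
    rw [← h4, map_f]; congr 1; ext p; simp only [Function.comp_apply, ex, c.ht_e]
  have hP := hJ.map c.me
  refine ⟨J.map _ c.me, hP, ⟨fun F hF w hw => (c.tw hP hP (fun φ hφ => ?_) (fun t => ?_) F hF).symm,
    fun k => c.ext (isP_tr C.t k hP) (hP.map (measurable_const_smul k⁻¹)) (fun φ hφ => ?_)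
      fun t => ?_, fun s hs => c.ext (isP_tr C.s s hP) hP (fun φ hφ => ?_) fun t => ?_⟩, e1,
    fun t => e2 t ▸ (h2 t).1, fun t => e2 t ▸ (h2 t).2⟩
  · rw [e1 φ hφ, iE.cm φ hφ w hw]
  · rw [e2, (h2 t).1.1 w hw]
  · rw [tr_f, e1 φ hφ, iE.cov k φ hφ, ← e1 _ (hφ.comp (measurable_const_smul _)),
      map_f _ (measurable_const_smul _)]
    simp only [Function.comp_def, c.dir_smul]
  · rw [tr_f, e2, (h2 t).1.2.2.2, map_f _ (measurable_const_smul _), ← e2, ← e1 _ (bd_ex t (c.mco _)),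
      ← hP.mul _ _ (bd_comp (bd_ex t (c.mco _)) c.mdir) (bd_ex t c.mht), ← c.ex_smul]
    rfl
  · rw [tr_f, e1 φ hφ, iE.inv s hs φ hφ]
  · rw [tr_f, e2, (h2 t).1.2.2.1 s hs]

variable {c}

/-- the elements which fix `E` and normalise `S` translate the height -/
theorem Pv.shift (h : c.Pv C S E θ) {p : G} (hp : ∀ s ∈ S, p⁻¹ * s * p ∈ S)
    (hE : ∀ φ, Bd φ → C.s.π p * E.f φ * C.s.π p⁻¹ = E.f φ) : ∃ k : ℝ,
    (∀ t, ∀ a ∈ c.X C S E t, C.s.π p * a * C.s.π p⁻¹ = Complex.exp (t * k * Complex.I) • a) ∧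
      ∀ F, Bd F → C.s.π p * θ.f F * C.s.π p⁻¹ = θ.f (F ∘ c.sh k) := by
  have hU := P092SB.op_ex h.isP c.mht
  choose χ hχ using fun t => h.gen t _ (Xm.conj (fun k => bd_ex t (c.mco _)) (h.mem t) hp hE)
  have n1 : ∀ t, ‖θ.f (ex t c.ht) C.s.Ω‖ = 1 := fun t => (hU.norm t _).trans C.s.nΩ
  have e1 : ∀ t, χ t = ⟪θ.f (ex t c.ht) C.s.Ω, C.s.π p (θ.f (ex t c.ht) (C.s.π p⁻¹ C.s.Ω))⟫_ℂ :=
    fun t => by
      have := congrArg (fun T : K →L[ℂ] K => ⟪θ.f (ex t c.ht) C.s.Ω, T C.s.Ω⟫_ℂ) (hχ t)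
      simp only [smul_apply, inner_smul_right, inner_self_eq_norm_sq_to_K, n1] at this
      simpa using this.symm
  obtain ⟨k, hk⟩ := P092SB.char (χ := χ) (by
    rw [funext e1]
    exact (hU.cont _).inner ((C.s.π p).continuous.comp (hU.cont _))) (fun s t => by
    have h1 := hχ (s + t)
    rw [hU.add, C.s.conj_mul, hχ, hχ, smul_mul_smul_comm, ← hU.add, ← sub_eq_zero,
      ← sub_smul] at h1
    have := congrArg (fun T : K →L[ℂ] K => ‖T C.s.Ω‖) h1
    simp only [smul_apply, norm_smul, n1, zero_apply, norm_zero, mul_one, norm_eq_zero] at this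
    exact (sub_eq_zero.1 this).symm) fun t => by
    have := congrArg (fun T : K →L[ℂ] K => ‖T C.s.Ω‖) (hχ t)
    simp only [smul_apply, norm_smul, n1, mul_ap, C.s.norm_π, hU.norm, C.s.nΩ] at this
    simpa using this.symm
  refine ⟨k, fun t a ha => ?_, c.ext (isP_tr C.s p h.isP) (h.isP.map (c.msh k)) (fun φ hφ => ?_)
    fun t => ?_⟩
  · obtain ⟨z, rfl⟩ := h.gen t a ha
    rw [mul_smul_comm, smul_mul_assoc, hχ, hk, smul_comm]
  · rw [tr_f, h.dir φ hφ, hE φ hφ, ← h.dir φ hφ, map_f]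
    simp only [Function.comp_def, sh, c.dir_e]
  · rw [tr_f, hχ, hk, map_f, ← θ.smul _ (bd_ex t c.mht)]
    congr 1
    ext z
    simp [ex, sh, c.ht_e, mul_add, add_mul, Complex.exp_add, mul_comm]

end Cn

/-- the measure `A ↦ Tr (a* θ(A) a)` -/
noncomputable def trm (S : Side μ W) (θ : POM Z K) (a : K →L[ℂ] K) : Measure Z :=
  Measure.sum fun γ => μ S.D • θ.ν (a (S.Om γ))

theorem trm_apply (S : Side μ W) (θ : POM Z K) (a : K →L[ℂ] K) {A : Set Z}
    (hA : MeasurableSet A) : trm S θ a A = tq S (θ.P A) a := by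
  simp [trm, tq, Measure.sum_apply _ hA, θ.inner_P hA, Measure.real]

theorem trm_univ (S : Side μ W) (θ : POM Z K) {a : K →L[ℂ] K} (ha : Cm W a) :
    trm S θ a univ ≤ S.Tr a := by
  rw [trm, Measure.sum_apply _ .univ, S.Tr_eq_tsum ha, ← ENNReal.tsum_mul_left]
  exact ENNReal.tsum_le_tsum fun γ => mul_le_mul_right (θ.fin _) _

theorem eq_zero_of_mass (Λ : Measure ℝ) (hΛ : Λ univ ≠ ∞) {c : ℝ≥0∞} (hc : c ≠ 0) {d R : ℝ}
    (h : ∀ j : ℕ, c ≤ Λ {v | |v + j * d| ≤ R}) : d = 0 := by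
  by_contra h0
  have h1 := abs_pos.2 h0
  have h2 := tendsto_measure_iInter_atTop (μ := Λ) (s := fun j : ℕ => {v | j * |d| - R ≤ |v|})
    (fun j => (measurableSet_le measurable_const measurable_abs).nullMeasurableSet)
    (fun i j hij v hv => le_trans (sub_le_sub_right
      (mul_le_mul_of_nonneg_right (Nat.cast_le.2 hij) h1.le) R) hv)
    ⟨0, measure_ne_top_of_subset (subset_univ _) hΛ⟩
  have h3 : ⋂ j : ℕ, {v : ℝ | j * |d| - R ≤ |v|} = ∅ := eq_empty_of_forall_notMem fun v hv => by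
    obtain ⟨j, hj⟩ := exists_nat_gt ((|v| + R) / |d|)
    have := mem_iInter.1 hv j
    rw [div_lt_iff₀ h1] at hj
    simp only [mem_setOf_eq] at this
    linarith
  rw [h3, measure_empty] at h2
  refine hc (le_zero_iff.1 (ge_of_tendsto' h2 fun j => (h j).trans (measure_mono fun v hv => ?_)))
  have h4 := abs_sub (v + j * d) v
  rw [add_sub_cancel_left, abs_mul, Nat.abs_cast] at h4
  simp only [mem_setOf_eq] at hv ⊢
  linarith

theorem shift_P (H₀ H₁ : POM ℝ K) {k : ℝ}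
    (h : ∀ t, H₁.f (ex t id) = Complex.exp (t * k * Complex.I) • H₀.f (ex t id)) {A : Set ℝ}
    (hA : MeasurableSet A) : H₁.P A = H₀.P ((fun v => v + k) ⁻¹' A) :=
  P092SB.ext_ex H₁ (H₀.map _ (measurable_add_const k)) (fun t => by
    rw [h, map_f, ← H₀.smul _ (bd_ex t measurable_id)]
    congr 1
    ext v
    simp [ex, mul_add, add_mul, Complex.exp_add, mul_comm]) (Bd.ind hA)

/-- **The speed** of the heights is the speed of the windows. -/
theorem speed (C : Cpl μ μ' W) {θ₀ : POM Z K} {ht : Z → ℝ} (mht : Measurable ht) {p : G} {k s : ℝ}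
    (e : ∀ t, C.s.π p * θ₀.f (ex t ht) * C.s.π p⁻¹ =
      Complex.exp (t * k * Complex.I) • θ₀.f (ex t ht)) {a : K →L[ℂ] K} (ha : Cm W a)
    (h0 : C.t.Tr a ≠ ∞) {c : ℝ≥0∞} (hc : c ≠ 0) {R : ℝ} (h : ∀ j : ℕ, c ≤
      tq C.t (C.s.π (p ^ j) * θ₀.P {z | |ht z - j * s| ≤ R} * C.s.π (p ^ j)⁻¹) a) : k = s := by
  have e1 : ∀ (j : ℕ) t, C.s.π (p ^ j) * θ₀.f (ex t ht) * C.s.π (p ^ j)⁻¹ =
      Complex.exp (t * (j * k : ℝ) * Complex.I) • θ₀.f (ex t ht) := fun j t => by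
    induction j with
    | zero => simp
    | succ j ih =>
      rw [pow_succ, ← C.s.conj_conj, e, mul_smul_comm, smul_mul_assoc, ih, smul_smul,
        ← Complex.exp_add]
      congr 2
      push_cast
      ring
  refine sub_eq_zero.1 (eq_zero_of_mass (trm C.t (θ₀.map ht mht) a)
    (ne_top_of_le_ne_top h0 (trm_univ _ _ ha)) hc (R := R) fun j => (h j).trans_eq ?_)
  have m : ∀ d : ℝ, MeasurableSet {v : ℝ | |v + d| ≤ R} := fun d =>
    measurableSet_le (measurable_abs.comp (measurable_add_const d)) measurable_const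
  rw [trm_apply _ _ _ (m _)]
  have := shift_P (θ₀.map ht mht) (tr C.s (p ^ j) (θ₀.map ht mht)) (e1 j) (m (-(j * s)))
  congr 1
  refine Eq.trans (by simp only [← sub_eq_add_neg]; rfl) (this.trans ?_)
  congr 1
  ext v
  simp only [mem_setOf_eq, mem_preimage]
  ring_nf

end Vale.Agent.P092TH
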