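import Vale.Agent.P092TH.Mass
import Vale.Agent.P092RS.Main
import Vale.Agent.P092RG.ForTH
import Vale.Agent.P092RD.Sep

/-!
P092 (helper7): the cone calculus in rank one (block TH).
-/

set_option linter.all false

open scoped InnerProductSpace ENNReal NNReal CompactlySupported Pointwise
open MeasureTheory Filter Topology ContinuousLinearMap Set ProbabilityTheory

namespace Vale.Agent.P092TH

open Vale.Agent.P092CP Vale.Agent.P092RD Vale.Agent.P092RD.POM
open Vale.Agent.P092.RC (Cm Moore)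
open Vale.Agent.P092RG (R1 eo eo_add eo_mono eo_ne_top eo_ne_zero exists_eo_le exists_le_eo)
open Vale.Agent.P092RS Vale.Agent.P092.H793.Re

variable {G G' K : Type} [Group G] [TopologicalSpace G] [IsTopologicalGroup G]
  [LocallyCompactSpace G] [SecondCountableTopology G] [T2Space G] [MeasurableSpace G] [BorelSpace G]
  [Group G'] [TopologicalSpace G'] [IsTopologicalGroup G'] [LocallyCompactSpace G']
  [SecondCountableTopology G'] [T2Space G'] [MeasurableSpace G'] [BorelSpace G']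
  [NormedAddCommGroup K] [InnerProductSpace ℂ K] [CompleteSpace K] {μ : Measure G}
  [μ.IsHaarMeasure] {μ' : Measure G'} [μ'.IsHaarMeasure] {W : Set (K →L[ℂ] K)}

theorem lint_avg (C : Cpl μ μ' W) (B : Set G) (z : G) {y b : K →L[ℂ] K} (hy : Cm W y)
    (hb : Cm W b) : ∫⁻ g, C.t.Tr (y * (C.s.π g⁻¹ * adjoint b * C.s.π g)) ∂un μ B z =
      (μ B)⁻¹ * ∫⁻ u in B, C.t.Tr (b * C.s.π (z * u) * adjoint y) ∂μ := by
  simp only [tr_flip C hy hb]
  exact lint_un (P092RE.meas_Tr C.s C.t measurable_id b _) z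

/-- lower bound for the averaged traces -/
theorem lo_avg (C : Cpl μ μ' W) {B A D : Set G} (hA : MeasurableSet A) (hD : MeasurableSet D)
    (z : G) {c : ℝ≥0∞} (hc : ∀ x ∈ D, c ≤ μ (B ∩ {u | z * u * x ∈ A})) {y : K →L[ℂ] K}
    (hy : Cm W y) : (μ B)⁻¹ * (c * C.t.Tr (C.s.P D * adjoint y)) ≤
      ∫⁻ g, C.t.Tr (y * (C.s.π g⁻¹ * C.s.P A * C.s.π g)) ∂un μ B z := by
  have h1 := lint_avg C B z hy (C.s.cm_P hA)
  rw [C.s.adjoint_P hA] at h1
  rw [h1]
  refine mul_le_mul_right (P092RE.Lo.Tr (S := C.s) (i := fun u => z * u) (fun ξ => ?_) C.t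
    (measurable_const_mul z) _) _
  refine le_trans ?_ (P092RE.lint_sm C.s (measurable_const_mul z) (Bd.ind hA) ξ).ge
  rw [C.s.enorm_P hD, ← lintegral_const_mul'' _ (meas_sq _).restrict]
  refine (setLIntegral_mono' hD fun x hx => mul_le_mul_left ((hc x hx).trans ?_) _).trans
    (setLIntegral_le_lintegral _ _)
  have m : MeasurableSet {u | z * u * x ∈ A} := ((measurable_const_mul z).mul_const x) hA
  rw [inter_comm, ← Measure.restrict_apply m, ← lintegral_indicator_one m]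
  refine lintegral_mono fun u => ?_
  by_cases a : z * u * x ∈ A <;> simp [a]

theorem eo_aux {a : ℝ} {x : ℝ≥0∞} (h : eo a ≤ x + eo (a - 2) + eo (a - 2)) : eo (a - 2) ≤ x := by
  refine ENNReal.le_of_add_le_add_right (eo_ne_top (a - 2)) (ENNReal.le_of_add_le_add_right
    (eo_ne_top (a - 2)) (le_trans ?_ h))
  have h1 := Real.add_one_le_exp 2
  have h2 := Real.exp_pos (a - 2)
  have h3 : Real.exp a = Real.exp (a - 2) * Real.exp 2 := by rw [← Real.exp_add, sub_add_cancel]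
  rw [eo, eo, ← ENNReal.ofReal_add h2.le h2.le, ← ENNReal.ofReal_add (by positivity) h2.le]
  exact ENNReal.ofReal_le_ofReal (by nlinarith)

variable {n n' : ℕ} {ρ : G →* SLn n} {w : Fin n → ℝ} {ρ' : G' →* SLn n'} {w' : Fin n' → ℝ}
  (h : R1 ρ w) (h' : R1 ρ' w') (C : Cpl μ μ' W)

theorem bp (μ : Measure G) [μ.IsHaarMeasure] : Bp μ (ball h 1) :=
  ⟨h.isCompact_ball 1, h.ball_ne_zero μ one_pos⟩

theorem meas_sh (l R : ℝ) : MeasurableSet {x | |h.rr x - l| ≤ R} :=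
  (isClosed_le (h.continuous_rr.sub continuous_const).abs continuous_const).measurableSet

theorem ball_small (μ : Measure G) [μ.IsHaarMeasure] (b : ℝ) :
    ∃ R, 0 ≤ R ∧ ∀ l, R ≤ l → μ (ball h (l - R)) ≤ eo (h.Q * l - b) := by
  obtain ⟨c, hc⟩ := h.ball_le μ
  refine ⟨|c + b|, abs_nonneg _, fun l hl => (hc _ (sub_nonneg.2 hl)).trans (eo_mono ?_)⟩
  nlinarith [le_abs_self (c + b), abs_nonneg (c + b), h.one_le_Q]

variable {h h' C}

/-- the shells of the same radius are coupled -/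
theorem shells (hQ : h.Q = h'.Q) (hW : Wn h h' C) : ∃ R b : ℝ, ∀ᶠ l : ℝ in atTop,
    eo (h.Q * l - b) ≤ C.t.Tr (C.s.P {x | |h.rr x - l| ≤ R} * C.t.P {x | |h'.rr x - l| ≤ R}) := by
  obtain ⟨R, hR⟩ := hW
  obtain ⟨k, hk⟩ := exists_le_eo (a := (C.κ⁻¹ : ℝ≥0)) ENNReal.coe_ne_top
  obtain ⟨R1, p1, h1⟩ := ball_small h μ (R + 2 + k)
  obtain ⟨R2, p2, h2⟩ := ball_small h' μ' (R + 2)
  refine ⟨|R| + R1 + R2, R + 2, ?_⟩
  filter_upwards [hR, eventually_ge_atTop R1, eventually_ge_atTop R2] with l hl l1 l2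
  have mA := meas_sh h l (|R| + R1 + R2)
  have mB := meas_sh h' l (|R| + R1 + R2)
  have a1 := abs_nonneg R
  have a2 := le_abs_self R
  rw [← sub_sub]
  refine eo_aux (hl.trans ((tr_P_le C.t C.t mB (meas_ball h' (l - R2)) (meas_ball h' _)
    (fun x hx => ?_) _).trans (add_le_add ?_ ?_)))
  · have : h'.rr x ≤ l + R := hx
    exact (le_total (l - R2) (h'.rr x)).imp (fun e => (abs_le (a := _ - l)).2
      ⟨by linarith, by linarith⟩) id
  · rw [← C.tr_adj _ (cm_mul (C.t.cm_P mB) (C.s.cm_P (meas_ball h l))), adj_mul,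
      C.t.adjoint_P mB, C.s.adjoint_P (meas_ball h l)]
    refine (tr_P_le C.s C.t mA (meas_ball h (l - R1)) (meas_ball h _) (fun x hx => ?_) _).trans
      (add_le_add_right ?_ _)
    · have : h.rr x ≤ l := hx
      exact (le_total (l - R1) (h.rr x)).imp (fun e => (abs_le (a := _ - l)).2
      ⟨by linarith, by linarith⟩) id
    · refine (C.swap.tr_eq _ (cm_mul (C.s.cm_P (meas_ball h _)) (C.t.cm_P mB))).le.trans
        ((mul_le_mul' hk ((Tr_PP_le C.swap mB (meas_ball h _)).trans (h1 l l1))).trans ?_)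
      rw [← eo_add]
      exact eo_mono (by linarith)
  · refine (Tr_PP_le C (meas_ball h l) (meas_ball h' _)).trans ((h2 l l2).trans (eo_mono ?_))
    rw [hQ]; linarith

/-- the averages along the ray -/
noncomputable abbrev nu (h : R1 ρ w) (μ : Measure G) (l : ℝ) : Measure G :=
  un μ (ball h 1) (h.a l)

instance (l : ℝ) : IsProbabilityMeasure (nu h μ l) := prob_un (bp h μ).cpt (bp h μ).pos _

/-- the limit of the windows along the ray -/
abbrev Ray (h : R1 ρ w) (h' : R1 ρ' w') (C : Cpl μ μ' W) (θ : POM h'.Z K) : Prop :=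
  Lm C (Ultrafilter.of atTop) (nu h μ) (ball h' 1) (fun l => h'.dl (-l) h'.z0) θ

theorem ht_win (x : G') (l : ℝ) : h'.ht (x • h'.dl (-l) h'.z0) = h'.hs x - l := by
  rw [h'.smul_dl, h'.ht_dl, h'.smul_z0, h'.ht_mk, sub_eq_add_neg]

theorem meas_low (h' : R1 ρ' w') (x : G') (R : ℝ) :
    MeasurableSet {u | h'.rr u ≤ 1 ∧ h'.hs (x * u) ≤ h'.rr x - R} :=
  (meas_ball h' 1).inter (isClosed_le (h'.continuous_hs.comp (continuous_const_mul x))
    continuous_const).measurableSet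

theorem eps_ne (h' : R1 ρ' w') (μ' : Measure G') [μ'.IsHaarMeasure] {ε : ℝ} (hε : 0 < ε) :
    ENNReal.ofReal ε * μ' (ball h' 1) ≠ 0 :=
  mul_ne_zero (ENNReal.ofReal_pos.2 hε).ne' (bp h' μ').pos

theorem cpt_ht (h' : R1 ρ' w') (t R : ℝ) : IsCompact {z | |h'.ht z - t| ≤ R} :=
  (h'.isCompact_ht (R + |t|)).of_isClosed_subset
    (isClosed_le (h'.continuous_ht.sub continuous_const).abs continuous_const) fun z hz => by
      have : |h'.ht z - t| ≤ R := hz
      have := abs_sub_abs_le_abs_sub (h'.ht z) t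
      show |h'.ht z| ≤ _
      linarith

variable {θ₀ : POM h'.Z K}

/-- **the mass of the limit moves at unit speed** -/
theorem Ray.mass (L : Ray h h' C θ₀) (hQ : h.Q = h'.Q) (hW : Wn h h' C) :
    ∃ (a : K →L[ℂ] K) (c : ℝ≥0∞) (R : ℝ), Cm W a ∧ C.t.Tr a ≠ ∞ ∧ c ≠ 0 ∧ ∀ t,
      c ≤ tq C.t (C.s.π (h.a t) * θ₀.P {z | |h'.ht z - t| ≤ R} * C.s.π (h.a t)⁻¹) a := by
  obtain ⟨R, b, hl⟩ := shells hQ hW
  obtain ⟨r0, c, hc⟩ := h.low_ball μ one_pos R
  obtain ⟨R5, h5⟩ := h'.hs_low μ' (eps_ne h' μ' one_half_pos) 1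
  have m0 := meas_ball h r0
  have f0 : C.t.Tr (C.s.P (ball h r0)) ≠ ∞ := (C.Tr_fin (C.s.cm_P m0)).1 (by
    rw [C.s.Tr_P m0]; exact h.ball_ne_top μ r0)
  refine ⟨_, .ofReal (1 - 1 / 2) * ((μ (ball h 1))⁻¹ * eo (-c - b)), R + |R5| + 2, C.s.cm_P m0, f0,
    mul_ne_zero (by norm_num) (mul_ne_zero (ENNReal.inv_ne_zero.2 (bp h μ).cpt.measure_lt_top.ne)
      (eo_ne_zero _)), fun t => ?_⟩
  obtain ⟨L', F, -, h1, h2, h3, h4⟩ := exists_bump (cpt_ht h' t (R + |R5| + 1))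
    (isOpen_lt (h'.continuous_ht.sub continuous_const).abs continuous_const :
      IsOpen {z | |h'.ht z - t| < R + |R5| + 2}) fun z hz =>
      (show |h'.ht z - t| ≤ _ from hz).trans_lt (by linarith)
  haveI : ∀ l, IsProbabilityMeasure ((nu h μ l).map fun g => h.a t * g) := fun l =>
    Measure.isProbabilityMeasure_map (measurable_const_mul _).aemeasurable
  have T : Tendsto (fun l : ℝ => t + l) (Ultrafilter.of (atTop : Filter ℝ)) atTop :=
    tendsto_atTop_add_const_left _ t (tendsto_id'.2 (Ultrafilter.of_le _))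
  refine (Lm.conj L (h.a t) (Homeomorph.refl _) fun _ _ => rfl).mass (bp h' μ') F h4
    (cpt_ht h' t _).measurableSet (fun z hz => h3 z fun e => hz (le_of_lt (α := ℝ) (h1 e)))
    (fun l => meas_sh h' (t + l) R) (.of_forall fun l x hx => le_wf (bp h' μ') F h4
      (meas_low h' x R5) (fun u hu e => h2 _ ?_) one_half_pos.le (h5 x)) (C.s.cm_P m0) f0 ?_
  · have a1 : h'.rr x - R5 < h'.hs (x * u) := not_le.1 fun e' => e ⟨hu, e'⟩
    have a2 := (h'.hs_le_rr (x * u)).trans (h'.rr_mul_le x u)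
    have a3 : h'.rr u ≤ 1 := hu
    have a4 := abs_le.1 (show |h'.rr x - (t + l)| ≤ R from hx)
    show |h'.ht ((x * u) • h'.dl (-l) h'.z0) - t| ≤ _
    rw [ht_win]
    exact abs_le.2 ⟨by linarith [le_abs_self R5], by linarith [abs_nonneg R5]⟩
  · filter_upwards [T.eventually hl, T.eventually (eventually_ge_atTop 0)] with l l1 l0
    rw [map_un, ← h.a_add]
    refine le_trans (mul_le_mul_right ?_ _) (lo_avg C m0 (meas_sh h (t + l) R) _ (hc _ l0)
      (C.t.cm_P (meas_sh h' _ _)))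
    rw [C.t.adjoint_P (meas_sh h' _ _)]
    refine le_trans ?_ (mul_le_mul_right l1 _)
    rw [← eo_add]
    exact eo_mono (by linarith)

theorem ai_N {s : G} (hs : s ∈ (h.N : Set G)) : AI (Ultrafilter.of atTop) (nu h μ) s :=
  ai_of_tendsto (bp h μ).cpt ((h.contr_N hs).mono_left (Ultrafilter.of_le _))

theorem ai_M {m : G} (hm : m ∈ h.M) : AI (Ultrafilter.of atTop) (nu h μ) m :=
  ai_of_eq (bp h μ).cpt fun l g e => by
    rw [mul_assoc, h.L_comm_a (h.M_le_L hm), inv_mul_cancel_left] at e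
    exact (h.rr_K_mul (h.K.inv_mem (h.M_le_K hm)) g).ge.trans e

/-- the cone of a rank one group -/
noncomputable def cn (h' : R1 ρ' w') : Cn G' h'.Y h'.Z where
  dir := h'.dir
  ht := h'.ht
  e := h'.zH
  co := h'.co
  mdir := h'.continuous_dir.measurable
  mht := h'.continuous_ht.measurable
  me := h'.zH.continuous.measurable
  mco := h'.measurable_co
  dir_e p := congrArg Prod.fst (h'.zH.symm_apply_apply p)
  ht_e p := congrArg Prod.snd (h'.zH.symm_apply_apply p)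
  e_dir := h'.dl_sec_dir
  dir_smul := h'.dir_smul
  ht_smul := h'.ht_smul

theorem sh_eq (k : ℝ) : (cn h').sh k = h'.dl k := funext fun z => by
  show h'.dl (h'.ht z + k) (h'.sec (h'.dir z)) = _
  rw [add_comm, h'.dl_add, h'.dl_sec_dir]

/-- **finite trace per unit volume of `N`** -/
theorem Ray.fin (L : Ray h h' C θ₀) (hQ : h.Q = h'.Q) {θ : POM h'.Z K} (hθ : θ.IsP)
    (iθ : Inv C h.N θ) (e : ∀ t, ∃ c : ℂ, θ₀.f (ex t h'.ht) = c • θ.f (ex t h'.ht))
    (h0 : θ₀.f 1 ≠ 0) (A : Set h'.Z) (hA : IsCompact A) : ∃ c : ℝ≥0∞, c ≠ ∞ ∧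
      ∀ b, Cm W b → NI h C.s b → C.t.Tr (θ.P A * adjoint b) ≤ c := by
  have mh := h'.continuous_ht.measurable
  obtain ⟨ε, hε, hg⟩ := P092OM.gau_all (H₀ := θ₀.map _ mh) (hθ.map mh) e h0
  obtain ⟨r, hr⟩ := (hA.image h'.continuous_ht).isBounded.subset_ball 0
  rw [Real.ball_eq_Ioo] at hr
  obtain ⟨R, -, hR⟩ := hg (0 - r) (0 + r)
  have mI : MeasurableSet (h'.ht ⁻¹' Ioo (0 - r) (0 + r)) := mh measurableSet_Ioo
  obtain ⟨R5, h5⟩ := h'.hs_low μ' (eps_ne h' μ' (half_pos hε)) 1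
  obtain ⟨L', F, -, h1, h2, h3, h4⟩ := exists_bump (h'.isCompact_ht R)
    (isOpen_lt h'.continuous_ht continuous_const : IsOpen {z | h'.ht z < R + 1})
    fun z hz => (le_abs_self _).trans_lt (lt_of_le_of_lt hz (lt_add_one R))
  have mA := fun l => meas_ball h' (l + |R + 1 + R5|)
  obtain ⟨X, hX⟩ := exists_isL (S := C.s) (U := Ultrafilter.of atTop) (ν := nu h μ) zero_le_one
    fun l => C.t.norm_P_le (mA l)
  have up := L.upper (bp h' μ') F h4 (h'.isCompact_ht R).measurableSet h2 mA (half_pos hε).le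
    (.of_forall fun l x hx => wf_le (bp h' μ') h4 (meas_low h' x R5) (fun u hu e => h3 _ fun e' => by
      have a1 : h'.rr x - R5 < h'.hs (x * u) := not_le.1 fun e' => e ⟨hu, e'⟩
      have a2 : l + |R + 1 + R5| < h'.rr x := not_le.1 hx
      have a3 : h'.ht ((x * u) • h'.dl (-l) h'.z0) < R + 1 := h1 e'
      rw [ht_win] at a3
      linarith [le_abs_self (R + 1 + R5)]) (half_pos hε).le (h5 x)) hX
  obtain ⟨c1, n1⟩ := h.ni_ball μ 1
  obtain ⟨c2, n2⟩ := h'.ball_le μ'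
  have s0 : ‖((√(ε / 2) : ℝ) : ℂ)‖ₑ ^ 2 ≠ 0 := by simp; positivity
  refine ⟨(‖((√(ε / 2) : ℝ) : ℂ)‖ₑ ^ 2)⁻¹ * ((μ (ball h 1))⁻¹ *
    eo (c1 + c2 + h.Q * |R + 1 + R5|)), ENNReal.mul_ne_top (ENNReal.inv_ne_top.2 s0)
      (ENNReal.mul_ne_top (ENNReal.inv_ne_top.2 (bp h μ).pos) (eo_ne_top _)), fun b hb ni => ?_⟩
  set P := θ.P (h'.ht ⁻¹' Ioo (0 - r) (0 + r)) with hP
  have cP : Cm W P := iθ.cm _ (bd_ind1 mI)
  have aP : adjoint (b * P) = P * adjoint b := by
    rw [adj_mul, ← star_eq_adjoint P, θ.star_P mI]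
  have ca := cm_mul cP (C.adj_cm hb)
  refine (C.t.Tr_mono (T' := P * adjoint b) fun ξ => hθ.norm_P_mono hA.measurableSet mI
    (image_subset_iff.1 hr) _).trans ?_
  rw [← ENNReal.mul_le_iff_le_inv s0 (by simp), ← C.t.Tr_smul]
  refine (tr_le_tq C.t (X := X) (a := adjoint (b * P)) (cm_smul _ ca) fun η => ?_).trans
    (hX.tq_le (fun l => re_P C.t (mA l)) (fun l => C.t.cm_P (mA l)) (C.adj_cm (cm_mul hb cP))
      ((eventually_ge_atTop 0).filter_mono (Ultrafilter.of_le _) |>.mono fun l l0 => ?_))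
  · have a1 := hR (adjoint b η)
    have a2 := up (P (adjoint b η))
    rw [aP, smul_apply, norm_smul, mul_pow, Complex.norm_real, Real.norm_eq_abs, sq_abs,
      Real.sq_sqrt (half_pos hε).le, mul_ap]
    have a3 : ((θ₀.map _ mh).ν (P (adjoint b η))).real (Icc (-R) R) =
        (θ₀.ν (P (adjoint b η))).real {z | |h'.ht z| ≤ R} := by
      rw [show {z | |h'.ht z| ≤ R} = h'.ht ⁻¹' Icc (-R) R from Set.ext fun z => abs_le (a := h'.ht z)]
      exact map_measureReal_apply mh measurableSet_Icc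
    have a4 : ε * ‖P (adjoint b η)‖ ^ 2 ≤ _ := a1.trans_eq a3
    linarith
  · rw [lint_avg C _ _ (C.t.cm_P (mA l)) (cm_mul hb cP), C.t.adjoint_P (mA l)]
    refine mul_le_mul_right ((P092RE.Up.Tr (S := C.s) (i := fun u => h.a l * u)
      (c := eo (c1 - h.Q * l)) (fun ξ => n1 l (fun g => ‖(b * P) (C.s.π g ξ)‖ₑ ^ 2) _
        (((b * P).continuous.comp (C.s.cont ξ)).enorm.measurable.pow_const 2) fun g => ?_) C.t
          (measurable_const_mul _) _).trans ?_) _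
    · refine le_trans (lintegral_mono fun p => le_of_eq ?_) ((ni (P (C.s.π g ξ))).trans ?_)
      · have := iθ.inv _ (h.nE_mem p) _ (bd_ind1 mI)
        rw [← pi_ap, mul_ap, show P _ = _ from (ap_eq this _).symm, mul_ap, mul_ap, pi_inv_ap]
        rfl
      · rw [← C.s.enorm_π g ξ]
        exact pow_le_pow_left' (enorm_le_iff_norm_le.2 (θ.norm_P_apply_le mI _)) 2
    · rw [C.t.Tr_P (mA l)]
      refine (mul_le_mul_right (n2 _ (by positivity)) _).trans ?_
      rw [← eo_add, hQ]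
      exact eo_mono (by linarith)

/-- **block TH** -/
theorem bth : BTH := by
  intro n n' G G' K _ _ _ _ _ _ _ _ _ _ _ _ _ _ _ _ _ _ _ ρ w ρ' w' μ μ' _ _ W h h' C _ _ hQ hW
  haveI := h.noncompact
  obtain ⟨θ₀, L⟩ := exists_lm C (Ultrafilter.of atTop) (nu h μ) (bp h' μ')
    fun l => h'.dl (-l) h'.z0
  obtain ⟨a, c, R, ha, fa, hc, ms⟩ := Ray.mass L hQ hW
  have i0 := L.isInv (bp h' μ') fun s => ai_N
  have h0 : θ₀.f 1 ≠ 0 := fun e => hc (le_antisymm ((ms 0).trans_eq (by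
    have := (θ₀.P_eq_zero_iff MeasurableSet.univ).1 (θ₀.P_univ.trans e)
    rw [(θ₀.P_eq_zero_iff (cpt_ht h' 0 R).measurableSet).2 fun ξ =>
      measure_mono_null (subset_univ _) (this ξ)]
    simp [tq])) zero_le)
  obtain ⟨E, hE, iE, mod, uq⟩ := L.exists_E (bp h' μ') h.moore_N (fun s => ai_N)
    h'.continuous_dir h'.dir_smul (fun A L => h'.pr_pair μ') h0
  obtain ⟨θ, hθ⟩ := (cn h').exists_pv h.moore_N hE iE i0 mod h0
  have key : ∀ p ∈ h.P, ∀ s : ℝ, (∀ j : ℕ, c ≤ tq C.t (C.s.π (p ^ j) *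
      θ₀.P {z | |h'.ht z - j * s| ≤ R} * C.s.π (p ^ j)⁻¹) a) → ∀ F, Bd F →
        C.s.π p * θ.f F * C.s.π p⁻¹ = θ.f fun z => F (h'.dl s z) := fun p hp s hs F hF => by
    obtain ⟨k, k1, k2⟩ := hθ.shift (p := p) (fun s => h.conj_N' hp) (uq _ (iE.tr fun s =>
      h.conj_N' hp) (by show C.s.π p * E.f 1 * _ = 1; rw [hE.one, mul_one, pi_mul_inv]))
    obtain rfl := speed C h'.continuous_ht.measurable (fun t => k1 t _ ((cn h').mem_X i0 mod t))
      ha fa hc hs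
    rw [k2 F hF, sh_eq]
    rfl
  refine ⟨θ, ⟨hθ.isP, hθ.inv.cm, hθ.inv.cov, fun g hg F hF => ?_, fun s => key _ (h.a_mem_P s) s
    fun j => h.a_nsmul s j ▸ ms _, Ray.fin L hQ hθ.isP hθ.inv
      (fun t => hθ.gen t _ ((cn h').mem_X i0 mod t)) h0⟩, fun Φ h1 h2 h3 h4 f => ?_⟩
  · obtain ⟨m, hm, u, hu, rfl⟩ := h.mem_MN.1 hg
    have := key m (h.M_le_P hm) 0 (fun j => by
      have := ms 0
      rw [h.a_zero, inv_one, map_one, one_mul, mul_one] at this
      rw [mul_zero, POM.P, L.inv (bp h' μ') (ai_M (pow_mem hm j)) _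
        (bd_ind1 (cpt_ht h' 0 R).measurableSet)]
      exact this) F hF
    rw [ad, ← C.s.conj_conj, hθ.inv.inv u hu F hF, this]
    simp only [h'.dl_zero]
  · obtain ⟨Ψ, iΨ, e⟩ := inv_of_ucp C (S := h.N) h1 h2 h3 fun s hs => h4 ⟨s, h.N_le_B hs⟩
    have b : Bd (f : h'.Y → ℂ) := ⟨f.continuous.measurable, ‖f‖, f.norm_coe_le_norm⟩
    rw [← e, uq Ψ iΨ ((e 1).trans h1.one) f b]
    exact (hθ.dir f b).symm

end Vale.Agent.P092TH
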