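import Vale.Agent.P092CP.Gram
import Vale.Agent.P092RD.Mag
import Vale.Agent.P092.H108.Base

/-!
P092 (helper7): averages `∫ σ_g x dν` and their weak limits along an ultrafilter.
-/

set_option linter.all false

open scoped InnerProductSpace ENNReal NNReal
open MeasureTheory Filter Topology ContinuousLinearMap Set

namespace Vale.Agent.P092TH

open Vale.Agent.P092CP Vale.Agent.P092RD
open Vale.Agent.P092.RC (Cm Moore)

variable {G G' K : Type} [Group G] [TopologicalSpace G] [IsTopologicalGroup G]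
  [LocallyCompactSpace G] [SecondCountableTopology G] [T2Space G] [MeasurableSpace G] [BorelSpace G]
  [Group G'] [TopologicalSpace G'] [IsTopologicalGroup G'] [LocallyCompactSpace G']
  [SecondCountableTopology G'] [T2Space G'] [MeasurableSpace G'] [BorelSpace G']
  [NormedAddCommGroup K] [InnerProductSpace ℂ K] [CompleteSpace K] {μ : Measure G}
  [μ.IsHaarMeasure] {μ' : Measure G'} [μ'.IsHaarMeasure] {W : Set (K →L[ℂ] K)}

theorem ext_inner {x y : K →L[ℂ] K} (h : ∀ ξ η, ⟪ξ, x η⟫_ℂ = ⟪ξ, y η⟫_ℂ) : x = y :=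
  ContinuousLinearMap.ext fun η => ext_inner_left ℂ fun ξ => h ξ η

section av

variable (S : Side μ W) (ν : Measure G) [IsProbabilityMeasure ν] (x y : K →L[ℂ] K)

/-- `∫ σ_g x dν` -/
noncomputable def av : K →L[ℂ] K := gram ν (fun g => S.π g⁻¹) fun g => x * S.π g⁻¹

theorem cont_inv (ξ : K) : Continuous fun g => x (S.π g⁻¹ ξ) :=
  x.continuous.comp ((S.cont ξ).comp continuous_inv)

theorem cont_co (ξ η : K) : Continuous fun g => ⟪S.π g⁻¹ ξ, x (S.π g⁻¹ η)⟫_ℂ :=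
  (cont_inv S 1 ξ).inner (cont_inv S x η)

theorem norm_co (ξ η : K) (g : G) : ‖⟪S.π g⁻¹ ξ, x (S.π g⁻¹ η)⟫_ℂ‖ ≤ ‖x‖ * ‖ξ‖ * ‖η‖ := by
  refine (norm_inner_le_norm _ _).trans ?_
  have := x.le_opNorm (S.π g⁻¹ η)
  rw [S.norm_π] at this ⊢
  nlinarith [norm_nonneg ξ]

theorem int_co (ξ η : K) : Integrable (fun g => ⟪S.π g⁻¹ ξ, x (S.π g⁻¹ η)⟫_ℂ) ν :=
  Integrable.of_bound (cont_co S x ξ η).aestronglyMeasurable _ (.of_forall (norm_co S x ξ η))

theorem sqi : SqI ν (fun g => x * S.π g⁻¹) ‖x‖ :=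
  ⟨fun ξ => (cont_inv S x ξ).aestronglyMeasurable, norm_nonneg _, fun ξ => by
    refine (lintegral_mono fun g => ?_).trans (le_of_eq (lintegral_const _ |>.trans (by simp; rfl)))
    rw [← mul_pow, ← S.enorm_π g⁻¹ ξ]
    exact pow_le_pow_left' (x.le_opENorm _) 2⟩

theorem sqi1 : SqI ν (fun g => S.π g⁻¹) 1 :=
  ⟨fun ξ => (cont_inv S 1 ξ).aestronglyMeasurable, zero_le_one, fun ξ => by simp [S.enorm_π]⟩

theorem inner_av (ξ η : K) : ⟪ξ, av S ν x η⟫_ℂ = ∫ g, ⟪S.π g⁻¹ ξ, x (S.π g⁻¹ η)⟫_ℂ ∂ν :=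
  (sqi1 S ν).inner_gram (sqi S ν x) ξ η

theorem norm_av : ‖av S ν x‖ ≤ ‖x‖ := ((sqi1 S ν).norm_gram (sqi S ν x)).trans (one_mul _).le

theorem enorm_av (η : K) : ‖av S ν x η‖ₑ ^ 2 ≤ ∫⁻ g, ‖x (S.π g⁻¹ η)‖ₑ ^ 2 ∂ν := by
  refine le_trans (pow_le_pow_left' ?_ 2) ((sqi S ν x).enorm_col η).le
  rw [← ofReal_norm, ← ofReal_norm]
  refine ENNReal.ofReal_le_ofReal (((adjoint (col ν fun g => S.π g⁻¹)).le_opNorm _).trans ?_)
  rw [LinearIsometryEquiv.norm_map]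
  exact mul_le_of_le_one_left (norm_nonneg _) (sqi1 S ν).norm_col

theorem cm_av {x : K →L[ℂ] K} (hx : Cm W x) : Cm W (av S ν x) :=
  (sqi1 S ν).gram_cm (sqi S ν x) fun g => by
    have := S.conj x hx g
    rwa [S.adj, inv_inv, mul_assoc] at *

end av

section lim

variable {S : Side μ W} {ι : Type} {U : Ultrafilter ι} {ν : ι → Measure G}
  [∀ n, IsProbabilityMeasure (ν n)] {x y : ι → K →L[ℂ] K} {T T' : K →L[ℂ] K}

/-- `T` is the weak limit of the averages -/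
def IsL (S : Side μ W) (U : Ultrafilter ι) (ν : ι → Measure G) (x : ι → K →L[ℂ] K)
    (T : K →L[ℂ] K) : Prop :=
  ∀ ξ η, Tendsto (fun n => ⟪ξ, av S (ν n) (x n) η⟫_ℂ) U (𝓝 ⟪ξ, T η⟫_ℂ)

theorem isL_iff : IsL S U ν x T ↔ ∀ ξ η, Tendsto
    (fun n => ∫ g, ⟪S.π g⁻¹ ξ, x n (S.π g⁻¹ η)⟫_ℂ ∂ν n) U (𝓝 ⟪ξ, T η⟫_ℂ) := by
  simp only [IsL, inner_av]

theorem exists_isL {c : ℝ} (h0 : 0 ≤ c) (hc : ∀ n, ‖x n‖ ≤ c) : ∃ T, IsL S U ν x T :=
  (P092.H108.exists_wot_limit U (fun n => av S (ν n) (x n)) c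
    (fun n => (norm_av S _ _).trans (hc n)) h0).imp fun _ h => h.2

theorem IsL.unique (h : IsL S U ν x T) (h' : IsL S U ν x T') : T = T' :=
  ext_inner fun ξ η => tendsto_nhds_unique (h ξ η) (h' ξ η)

theorem IsL.add (h : IsL S U ν x T) (h' : IsL S U ν y T') :
    IsL S U ν (fun n => x n + y n) (T + T') := isL_iff.2 fun ξ η => by
  simp only [add_apply, inner_add_right, integral_add (int_co S _ _ ξ η) (int_co S _ _ ξ η)]
  exact (isL_iff.1 h ξ η).add (isL_iff.1 h' ξ η)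

theorem IsL.smul (c : ℂ) (h : IsL S U ν x T) : IsL S U ν (fun n => c • x n) (c • T) :=
  isL_iff.2 fun ξ η => by
    simp only [smul_apply, inner_smul_right, integral_const_mul]
    exact (isL_iff.1 h ξ η).const_mul c

theorem IsL.sub (h : IsL S U ν x T) (h' : IsL S U ν y T') :
    IsL S U ν (fun n => x n - y n) (T - T') := by
  simpa [sub_eq_add_neg] using h.add (h'.smul (-1))

theorem IsL.cm (h : IsL S U ν x T) (hx : ∀ n, Cm W (x n)) : Cm W T :=
  cm_of_weak (.of_forall fun n => cm_av S _ (hx n)) fun ξ η => h η ξ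

/-- operators which commute with the representation pass to the limit -/
theorem IsL.mul_cp (h : IsL S U ν x T) {a b : K →L[ℂ] K} (ha : Cp S.π a) (hb : Cp S.π b) :
    IsL S U ν (fun n => a * x n * b) (a * T * b) := isL_iff.2 fun ξ η => by
  have := isL_iff.1 h (adjoint a ξ) (b η)
  simp only [← (S.cp_adj ha).ap, ← hb.ap, adjoint_inner_left] at this
  exact this

theorem IsL.re_ge (h : IsL S U ν x T) {ξ : K} {c : ℝ}
    (hc : ∀ᶠ n in U, c ≤ ∫ g, (⟪S.π g⁻¹ ξ, x n (S.π g⁻¹ ξ)⟫_ℂ).re ∂ν n) : c ≤ (⟪ξ, T ξ⟫_ℂ).re := by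
  refine ge_of_tendsto ((Complex.continuous_re.tendsto _).comp (isL_iff.1 h ξ ξ)) (hc.mono ?_)
  intro n hn
  exact hn.trans_eq (integral_re (int_co S _ _ ξ ξ))

theorem IsL.re_le (h : IsL S U ν x T) {ξ : K} {c : ℝ}
    (hc : ∀ n η, ‖η‖ = ‖ξ‖ → (⟪η, x n η⟫_ℂ).re ≤ c) : (⟪ξ, T ξ⟫_ℂ).re ≤ c := by
  refine le_of_tendsto' ((Complex.continuous_re.tendsto _).comp (isL_iff.1 h ξ ξ)) fun n => ?_
  refine (integral_re (int_co S _ _ ξ ξ)).symm.trans_le ?_
  refine (integral_mono (int_co S _ _ ξ ξ).re (integrable_const c)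
    fun g => hc n _ (S.norm_π _ _)).trans (by simp)

theorem IsL.im_eq (h : IsL S U ν x T) (hc : ∀ n η, (⟪η, x n η⟫_ℂ).im = 0) (ξ : K) :
    (⟪ξ, T ξ⟫_ℂ).im = 0 := by
  refine tendsto_nhds_unique ((Complex.continuous_im.tendsto _).comp (isL_iff.1 h ξ ξ))
    (tendsto_const_nhds.congr fun n => ?_)
  refine Eq.trans ?_ (integral_im (int_co S _ _ ξ ξ))
  simp [hc]

/-- translation of the measures -/
theorem IsL.conj (h : IsL S U ν x T) (p : G) :
    IsL S U (fun n => (ν n).map fun g => p * g) x (S.π p * T * S.π p⁻¹) := by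
  haveI := fun n => Measure.isProbabilityMeasure_map (μ := ν n)
    (measurable_const_mul p).aemeasurable
  refine isL_iff.2 fun ξ η => ?_
  have := isL_iff.1 h (S.π p⁻¹ ξ) (S.π p⁻¹ η)
  rw [← S.adj, adjoint_inner_left, S.adj] at this
  refine this.congr fun n => ?_
  rw [integral_map (measurable_const_mul p).aemeasurable (cont_co S _ ξ η).aestronglyMeasurable]
  simp only [mul_inv_rev, pi_ap]

/-- asymptotic invariance of the measures under `s` -/
def AI (U : Ultrafilter ι) (ν : ι → Measure G) (s : G) : Prop :=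
  ∀ ε : ℝ, 0 < ε → ∀ᶠ n in U, ∀ (f : G → ℂ) (c : ℝ), Continuous f → (∀ g, ‖f g‖ ≤ c) →
    ‖∫ g, f (s * g) ∂ν n - ∫ g, f g ∂ν n‖ ≤ ε * c

theorem IsL.inv (h : IsL S U ν x T) {c : ℝ} (hc : ∀ n, ‖x n‖ ≤ c) {s : G} (hs : AI U ν s) :
    S.π s * T * S.π s⁻¹ = T := by
  haveI := fun n => Measure.isProbabilityMeasure_map (μ := ν n)
    (measurable_const_mul s).aemeasurable
  refine ext_inner fun ξ η => sub_eq_zero.1 (tendsto_nhds_unique
    ((isL_iff.1 (h.conj s) ξ η).sub (isL_iff.1 h ξ η)) ?_)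
  rw [NormedAddGroup.tendsto_nhds_zero]
  intro ε hε
  obtain ⟨δ, h1, h2⟩ := exists_pos_mul_lt hε (c * ‖ξ‖ * ‖η‖)
  filter_upwards [hs δ h1] with n hn
  rw [integral_map (measurable_const_mul s).aemeasurable (cont_co S _ ξ η).aestronglyMeasurable]
  refine (hn _ (c * ‖ξ‖ * ‖η‖) (cont_co S _ ξ η) fun g => (norm_co S _ ξ η g).trans ?_).trans_lt
    (by rwa [mul_comm])
  gcongr
  exact hc n

theorem IsL.re_mono (h : IsL S U ν x T) (h' : IsL S U ν y T')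
    (hc : ∀ᶠ n in U, ∀ η, (⟪η, x n η⟫_ℂ).re ≤ (⟪η, y n η⟫_ℂ).re) (ξ : K) :
    (⟪ξ, T ξ⟫_ℂ).re ≤ (⟪ξ, T' ξ⟫_ℂ).re := by
  have := (h'.sub h).re_ge (ξ := ξ) (c := 0) (hc.mono fun n hn => integral_nonneg fun g => by
    simpa [inner_sub_right] using hn _)
  simpa [inner_sub_right] using this

theorem isL_one : IsL S U ν (fun _ => 1) 1 := isL_iff.2 fun ξ η => by
  simp [S.inner_π]

theorem IsL.tendsto_q (h : IsL S U ν x T) (e : ∀ n η, (⟪η, x n η⟫_ℂ).re = ‖y n η‖ ^ 2) (η : K) :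
    Tendsto (fun n => ∫⁻ g, ‖y n (S.π g⁻¹ η)‖ₑ ^ 2 ∂ν n) U (𝓝 (.ofReal (⟪η, T η⟫_ℂ).re)) := by
  refine (ENNReal.tendsto_ofReal ((Complex.continuous_re.tendsto _).comp
    (isL_iff.1 h η η))).congr fun n => ?_
  have h1 := (int_co S (ν n) (x n) η η).re
  rw [Function.comp_apply, ← RCLike.re_to_complex, ← integral_re (int_co S _ _ η η),
    ofReal_integral_eq_lintegral_ofReal h1 (.of_forall fun g => by simp [e])]
  simp [e, ← ofReal_norm]

theorem tsum_le_of_tendsto {κ : Type*} {l : Filter ι} [l.NeBot] {f : ι → κ → ℝ≥0∞}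
    {g : κ → ℝ≥0∞} {c : ℝ≥0∞} (h : ∀ k, Tendsto (fun n => f n k) l (𝓝 (g k)))
    (hc : ∀ᶠ n in l, ∑' k, f n k ≤ c) : ∑' k, g k ≤ c := by
  rw [ENNReal.tsum_eq_iSup_sum]
  exact iSup_le fun F => le_of_tendsto (tendsto_finset_sum F fun k _ => h k)
    (hc.mono fun n hn => (ENNReal.sum_le_tsum F).trans hn)

theorem le_tsum_of_tendsto {κ : Type*} {l : Filter ι} [l.NeBot] {f : ι → κ → ℝ≥0∞}
    {g b : κ → ℝ≥0∞} {c : ℝ≥0∞} (h : ∀ k, Tendsto (fun n => f n k) l (𝓝 (g k)))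
    (hb : ∑' k, b k ≠ ∞) (hf : ∀ n k, f n k ≤ b k) (hc : ∀ᶠ n in l, c ≤ ∑' k, f n k) :
    c ≤ ∑' k, g k := by
  refine ENNReal.le_of_forall_pos_le_add fun ε hε _ => ?_
  obtain ⟨F, hF⟩ := ((ENNReal.tendsto_tsum_compl_atTop_zero hb).eventually
    (eventually_le_nhds (ENNReal.coe_pos.2 hε))).exists
  refine le_trans ?_ (add_le_add_left (ENNReal.sum_le_tsum F) _)
  refine ge_of_tendsto ((tendsto_finset_sum F fun k _ => h k).add_const _) (hc.mono fun n hn => ?_)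
  rw [← ENNReal.sum_add_tsum_compl F] at hn
  exact hn.trans (add_le_add_right ((ENNReal.tsum_le_tsum fun k => hf n _).trans hF) _)

theorem tr_conj (C : Cpl μ μ' W) {x a : K →L[ℂ] K} (hx : Cm W x) (ha : Cm W a) (g : G) :
    C.t.Tr (x * (C.s.π g⁻¹ * a * C.s.π g)) =
      μ' C.t.D * ∑' γ, ‖x (C.s.π g⁻¹ (a (C.t.Om γ)))‖ₑ ^ 2 := by
  have h2 := cm_mul (C.s.conj _ hx g) ha
  have h3 := C.Tr_σ h2 g⁻¹
  have h5 : C.s.π g⁻¹ * (C.s.π g * x * C.s.π g⁻¹ * a) * C.s.π g⁻¹⁻¹ =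
      x * (C.s.π g⁻¹ * a * C.s.π g) := by
    simp only [inv_inv, ← mul_assoc, pi_inv_mul, one_mul]
  rw [← h5, h3, C.t.Tr_eq_tsum h2]
  simp only [mul_ap, C.s.enorm_π]

theorem lint_tr (C : Cpl μ μ' W) (ν : Measure G) {x a : K →L[ℂ] K} (hx : Cm W x) (ha : Cm W a) :
    ∫⁻ g, C.t.Tr (x * (C.s.π g⁻¹ * a * C.s.π g)) ∂ν =
      ∑' γ, μ' C.t.D * ∫⁻ g, ‖x (C.s.π g⁻¹ (a (C.t.Om γ)))‖ₑ ^ 2 ∂ν := by
  have := C.t.cnt
  have h4 : ∀ γ, Measurable fun g => ‖x (C.s.π g⁻¹ (a (C.t.Om γ)))‖ₑ ^ 2 := fun γ =>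
    (cont_inv C.s _ _).enorm.measurable.pow_const 2
  rw [lintegral_congr (tr_conj C hx ha), lintegral_const_mul _ (.ennreal_tsum h4),
    lintegral_tsum fun γ => (h4 γ).aemeasurable, ENNReal.tsum_mul_left]

/-- `Tr (a* X a)` -/
noncomputable def tq (S : Side μ W) (X a : K →L[ℂ] K) : ℝ≥0∞ :=
  ∑' γ, μ S.D * .ofReal (⟪a (S.Om γ), X (a (S.Om γ))⟫_ℂ).re

theorem tr_le_tq (S : Side μ W) {X a T : K →L[ℂ] K} (hT : Cm W T)
    (h : ∀ η, ‖T η‖ ^ 2 ≤ (⟪a η, X (a η)⟫_ℂ).re) : S.Tr T ≤ tq S X a := by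
  rw [S.Tr_eq_tsum hT, ← ENNReal.tsum_mul_left]
  refine ENNReal.tsum_le_tsum fun γ => mul_le_mul_right ?_ _
  rw [← ofReal_norm, ← ENNReal.ofReal_pow (norm_nonneg _)]
  exact ENNReal.ofReal_le_ofReal (h _)

variable {C : Cpl μ μ' W} {a : K →L[ℂ] K} {c : ℝ≥0∞}

theorem IsL.tq_le (h : IsL C.s U ν x T) (e : ∀ n η, (⟪η, x n η⟫_ℂ).re = ‖y n η‖ ^ 2)
    (hy : ∀ n, Cm W (y n)) (ha : Cm W a)
    (hc : ∀ᶠ n in U, ∫⁻ g, C.t.Tr (y n * (C.s.π g⁻¹ * a * C.s.π g)) ∂ν n ≤ c) : tq C.t T a ≤ c :=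
  tsum_le_of_tendsto (l := (U : Filter ι))
    (f := fun n γ => μ' C.t.D * ∫⁻ g, ‖y n (C.s.π g⁻¹ (a (C.t.Om γ)))‖ₑ ^ 2 ∂ν n)
    (fun γ => ENNReal.Tendsto.const_mul (h.tendsto_q e _) (.inr C.t.vol))
    (hc.mono fun n hn => (lint_tr C _ (hy n) ha).symm.trans_le hn)

theorem IsL.le_tq (h : IsL C.s U ν x T) (e : ∀ n η, (⟪η, x n η⟫_ℂ).re = ‖y n η‖ ^ 2)
    (hy : ∀ n, Cm W (y n)) (h1 : ∀ n, ‖y n‖ ≤ 1) (ha : Cm W a) (h0 : C.t.Tr a ≠ ∞)
    (hc : ∀ᶠ n in U, c ≤ ∫⁻ g, C.t.Tr (y n * (C.s.π g⁻¹ * a * C.s.π g)) ∂ν n) : c ≤ tq C.t T a := by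
  rw [C.t.Tr_eq_tsum ha, ← ENNReal.tsum_mul_left] at h0
  refine le_tsum_of_tendsto (l := (U : Filter ι))
    (f := fun n γ => μ' C.t.D * ∫⁻ g, ‖y n (C.s.π g⁻¹ (a (C.t.Om γ)))‖ₑ ^ 2 ∂ν n)
    (fun γ => ENNReal.Tendsto.const_mul (h.tendsto_q e _) (.inr C.t.vol)) h0
    (fun n γ => mul_le_mul_right ((lintegral_mono fun g => ?_).trans_eq
      ((lintegral_const (‖a (C.t.Om γ)‖ₑ ^ 2)).trans (by simp))) _)
    (hc.mono fun n hn => hn.trans_eq (lint_tr C _ (hy n) ha))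
  refine pow_le_pow_left' ?_ 2
  rw [← C.s.enorm_π g⁻¹ (a _), ← ofReal_norm, ← ofReal_norm]
  exact ENNReal.ofReal_le_ofReal (((y n).le_of_opNorm_le (h1 n) _).trans_eq (one_mul _))

end lim

section cond

open ProbabilityTheory

variable {ι : Type} {U : Ultrafilter ι} {B : Set G} {z : ι → G}

/-- the uniform measure on `z B` -/
noncomputable def un (μ : Measure G) (B : Set G) (z : G) : Measure G := (μ[|B]).map fun g => z * g

theorem prob_un (hB : IsCompact B) (h0 : μ B ≠ 0) (z : G) : IsProbabilityMeasure (un μ B z) :=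
  haveI := cond_isProbabilityMeasure_of_finite h0 hB.measure_ne_top
  Measure.isProbabilityMeasure_map (measurable_const_mul z).aemeasurable

theorem map_un (p z : G) : (un μ B z).map (fun g => p * g) = un μ B (p * z) := by
  rw [un, un, Measure.map_map (measurable_const_mul p) (measurable_const_mul z)]
  congr 1; funext g; simp [mul_assoc]

theorem lint_un {f : G → ℝ≥0∞} (hf : Measurable f) (z : G) :
    ∫⁻ g, f g ∂un μ B z = (μ B)⁻¹ * ∫⁻ u in B, f (z * u) ∂μ := by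
  rw [un, lintegral_map hf (measurable_const_mul z), ProbabilityTheory.cond,
    lintegral_smul_measure, smul_eq_mul]

theorem int_un {f : G → ℂ} (hf : Continuous f) (z : G) :
    ∫ g, f g ∂un μ B z = ((μ B)⁻¹).toReal • ∫ u in B, f (z * u) ∂μ := by
  rw [un, integral_map (measurable_const_mul z).aemeasurable hf.aestronglyMeasurable,
    ProbabilityTheory.cond,    integral_smul_measure]

theorem ai_un (hB : IsCompact B) {s : G}
    (h : Tendsto (fun n => μ ((fun g => ((z n)⁻¹ * s * z n)⁻¹ * g) ⁻¹' B \ B)) U (𝓝 0)) :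
    AI U (fun n => un μ B (z n)) s := by
  intro ε hε
  have h1 := ((ENNReal.tendsto_toReal ENNReal.zero_ne_top).comp h).const_mul
    (((μ B)⁻¹).toReal * 2)
  rw [ENNReal.toReal_zero, mul_zero] at h1
  filter_upwards [h1.eventually (eventually_le_nhds hε)] with n hn f c hf hc
  set v := (z n)⁻¹ * s * z n with hv
  set A := (fun g => v⁻¹ * g) ⁻¹' B with hA
  have mB := hB.measurableSet
  have mA : MeasurableSet A := measurable_const_mul _ mB
  have eA : μ A = μ B := measure_preimage_mul μ _ _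
  have fA : μ A ≠ ∞ := eA ▸ hB.measure_ne_top
  have c0 : 0 ≤ c := (norm_nonneg _).trans (hc 1)
  have hF : Continuous fun u => f (z n * u) := hf.comp (continuous_const_mul _)
  have iF : ∀ D, μ D ≠ ∞ → IntegrableOn (fun u => f (z n * u)) D μ := fun D hD =>
    Measure.integrableOn_of_bounded hD hF.aestronglyMeasurable (.of_forall fun u => hc _)
  have e1 : ∫ u in B, f (s * (z n * u)) ∂μ = ∫ u in A, f (z n * u) ∂μ := by
    rw [← integral_indicator mA, ← integral_indicator mB,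
      ← integral_mul_left_eq_self (A.indicator _) v]
    refine integral_congr_ae (.of_forall fun u => ?_)
    have : v * u ∈ A ↔ u ∈ B := by simp [hA]
    have e : z n * (v * u) = s * (z n * u) := by simp [hv, mul_assoc]
    by_cases hu : u ∈ B
    · simp only [indicator_of_mem hu, indicator_of_mem (this.2 hu), e]
    · simp only [indicator_of_notMem hu, indicator_of_notMem (mt this.1 hu)]
  have e2 : μ (B \ A) = μ (A \ B) := by
    rw [← measure_inter_add_diff A mB, ← measure_inter_add_diff B mA, inter_comm B] at eA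
    exact ((ENNReal.add_right_inj (measure_ne_top_of_subset inter_subset_left fA)).1 eA).symm
  have e3 := norm_setIntegral_le_of_norm_le_const (μ := μ) (s := A \ B)
    ((measure_mono diff_subset).trans_lt fA.lt_top) fun u _ => hc (z n * u)
  have e4 := norm_setIntegral_le_of_norm_le_const (μ := μ) (s := B \ A)
    ((measure_mono diff_subset).trans_lt hB.measure_lt_top) fun u _ => hc (z n * u)
  rw [int_un (f := fun g => f (s * g)) (hf.comp (continuous_const_mul s)), int_un hf, ← smul_sub,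
    norm_smul, e1, ← integral_inter_add_diff mB (iF A fA), ← integral_inter_add_diff mA
    (iF B hB.measure_ne_top), inter_comm B, add_sub_add_left_eq_sub,
    Real.norm_of_nonneg ENNReal.toReal_nonneg]
  rw [Measure.real, e2] at e4
  rw [Measure.real] at e3
  refine (mul_le_mul_of_nonneg_left ((norm_sub_le _ _).trans (add_le_add e3 e4))
    ENNReal.toReal_nonneg).trans (le_trans (le_of_eq ?_) (mul_le_mul_of_nonneg_right hn c0))
  simp only [Function.comp_apply]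
  ring

theorem ai_of_tendsto (hB : IsCompact B) {s : G}
    (h : Tendsto (fun n => (z n)⁻¹ * s * z n) U (𝓝 1)) : AI U (fun n => un μ B (z n)) s := by
  refine ai_un hB (((tendsto_measure_smul_diff_isCompact_isClosed (μ := μ) hB
    hB.isClosed).comp h).congr fun n => ?_)
  simp only [Function.comp_apply]
  rw [← preimage_smul_inv]; rfl

theorem ai_of_eq (hB : IsCompact B) {s : G}
    (h : ∀ n, ∀ g, ((z n)⁻¹ * s * z n)⁻¹ * g ∈ B → g ∈ B) : AI U (fun n => un μ B (z n)) s :=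
  ai_un hB (tendsto_const_nhds.congr fun n => by
    rw [(diff_eq_empty (s := _ ⁻¹' B)).2 fun g hg => h n g hg, measure_empty])

end cond

end Vale.Agent.P092TH
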