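import Vale.Agent.P092TH.Mass
import Vale.Agent.P092GK.Cn
import Vale.Agent.P092GK.Dd
import Vale.Agent.P092MA.In

/-!
P092 (helper7): the cone calculus in higher rank (block B7): the interface.
-/

set_option linter.all false

open scoped InnerProductSpace ENNReal NNReal CompactlySupported Pointwise
open MeasureTheory Filter Topology ContinuousLinearMap Set ProbabilityTheory

namespace Vale.Agent.P092TH

open Vale.Agent.P092CP Vale.Agent.P092RD Vale.Agent.P092RD.POM Vale.Agent.P092GK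
open Vale.Agent.P092.RC (Cm Moore)
open Vale.Agent.P092MA (Fam Rel)

variable {G G' K : Type} [Group G] [TopologicalSpace G] [IsTopologicalGroup G]
  [LocallyCompactSpace G] [SecondCountableTopology G] [T2Space G] [MeasurableSpace G] [BorelSpace G]
  [Group G'] [TopologicalSpace G'] [IsTopologicalGroup G'] [LocallyCompactSpace G']
  [SecondCountableTopology G'] [T2Space G'] [MeasurableSpace G'] [BorelSpace G']
  [NormedAddCommGroup K] [InnerProductSpace ℂ K] [CompleteSpace K] {μ : Measure G}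
  [μ.IsHaarMeasure] {μ' : Measure G'} [μ'.IsHaarMeasure] {W : Set (K →L[ℂ] K)}

section Abstract

variable {Y Z : Type} [TopologicalSpace Y] [MeasurableSpace Y] [MulAction G' Y]
  [MeasurableSpace Z] [MulAction G' Z]

/-- opposite pairs; `ht₁ x + ht₂ y + δ (dir x, dir y)` is the invariant of a pair of cone points -/
structure Gm (Op : Set (Y × Y)) (c₁ c₂ : G' → Y → ℝ) (δ : Y × Y → ℝ) : Prop where
  opn : IsOpen Op
  inv : ∀ (h : G') x y, (h • x, h • y) ∈ Op ↔ (x, y) ∈ Op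
  cont : ContinuousOn δ Op
  meas : Measurable δ
  k₁ : Continuous fun q : G' × Y => c₁ q.1 q.2
  k₂ : Continuous fun q : G' × Y => c₂ q.1 q.2
  coc : ∀ h h' y, c₂ (h * h') y = c₂ h (h' • y) + c₂ h' y
  eq : ∀ (h : G') x y, (x, y) ∈ Op → δ (h • x, h • y) + c₁ h x + c₂ h y = δ (x, y)

/-- the calculus `E` is the limit of the windows along `a`, whatever the size of the averages -/
structure Wn (C : Cpl μ μ' W) (S : Set G) (a : ℕ → G) (U : Ultrafilter ℕ) (V : Set G') (y₀ : Y)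
    (E : POM Y K) : Prop where
  bp : Bp μ' V
  ctr : ∀ s ∈ S, Tendsto (fun n => (a n)⁻¹ * s * a n) U (𝓝 1)
  lm : ∀ B, Bp μ B → Lm C U (fun n => un μ B (a n)) V (fun _ => y₀) E

/-- a covariant calculus which is a module over `E` -/
structure Md (C : Cpl μ μ' W) (E : POM Y K) (dir : Z → Y) (Ψ : POM Z K) : Prop where
  cm : ∀ F, Bd F → Cm W (Ψ.f F)
  cov : Cov C.t.π Ψ
  mod : ∀ φ F, Bd φ → Bd F → Ψ.f (φ ∘ dir * F) = E.f φ * Ψ.f F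

/-- the unitaries with the height cocycle `c` -/
def Xu (C : Cpl μ μ' W) (S : Set G) (E : POM Y K) (c : G' → Y → ℝ) : Set (K →L[ℂ] K) :=
  {u | u ∈ unitary (K →L[ℂ] K) ∧ u ∈ Xm C S E fun k => ex 1 (c k⁻¹)}

/-- **R\***: `u' e^{iδ} u = κ` on opposite pairs, up to the oscillation of `δ` on the cells -/
def RS (C : Cpl μ μ' W) (dir : Z → Y) (Op : Set (Y × Y)) (δ : Y × Y → ℝ) (E' E : POM Y K)
    (u' u : K →L[ℂ] K) (κ : ℂ) (A : ℝ≥0∞) : Prop :=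
  ∀ Q₁ Q₂ : Set Y, IsCompact Q₁ → IsCompact Q₂ → Q₁ ×ˢ Q₂ ⊆ Op → ∀ (L : Set Z) (c : ℝ≥0∞),
    MeasurableSet L → (∀ (y : Y) (z : Z), μ' {h | h • y ∈ Q₂ ∧ h • z ∈ L ∧ dir (h • z) ∈ Q₁} ≤ c) →
    ∀ Ψ : POM Z K, Md C E' dir Ψ → ∀ (m : ℕ) (f : Fin m → Y → ℂ) (p : Fin m → C(Y, ℝ))
      (y : Fin m → Y) (ε : ℝ), (∀ j, Measurable (f j)) → (∀ j x, ‖f j x‖ ≤ 1) →
      (∀ j x, x ∉ Q₁ → f j x = 0) → (∀ j x, x ∉ Q₂ → p j x = 0) → (∀ x, ∑ j, |p j x| ≤ 1) →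
      (∀ j, ∀ x ∈ Q₁, ∀ x', p j x' ≠ 0 → |δ (x, x') - δ (x, y j)| ≤ ε) →
      C.t.Tr (Ψ.P L * ∑ j, (u' * E'.f (f j * ex 1 fun x => δ (x, y j)) *
        (E.f fun x => (p j x : ℂ)) * u - κ • (E'.f (f j) * E.f fun x => (p j x : ℂ)))) ≤
          A * c * ENNReal.ofReal ε ^ 2

/-- properness of the action on opposite pairs -/
def PrO (μ' : Measure G') [TopologicalSpace Z] (dir : Z → Y) (Op : Set (Y × Y)) : Prop :=
  ∀ Q₁ Q₂ : Set Y, IsCompact Q₁ → IsCompact Q₂ → Q₁ ×ˢ Q₂ ⊆ Op → ∀ L : Set Z, IsCompact L →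
    ∃ c : ℝ≥0∞, c ≠ ∞ ∧ ∀ (y : Y) (z : Z), μ' {h | h • y ∈ Q₂ ∧ h • z ∈ L ∧ dir (h • z) ∈ Q₁} ≤ c

/-- the two calculi meet on the opposite pairs -/
def ND (Op : Set (Y × Y)) (E' E : POM Y K) : Prop :=
  ∃ Q₁ Q₂ : Set Y, IsCompact Q₁ ∧ IsCompact Q₂ ∧ Q₁ ×ˢ Q₂ ⊆ Op ∧ E'.P Q₁ * E.P Q₂ ≠ 0

end Abstract

variable {k k' : Type} [NontriviallyNormedField k] [NontriviallyNormedField k'] {r : ℕ}
  (F : FlD k G r) (F' : FlD k' G' r) [MeasurableSpace (F'.Y Finset.univ)]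

/-- the operators of height `s • l` -/
def XF (C : Cpl μ μ' W) (S : Set G) (E : POM (F'.Y Finset.univ) K)
    (l : (Fin r → ℝ) →ₗ[ℝ] ℝ) (s : ℝ) : Set (K →L[ℂ] K) :=
  Xm C S E fun g => ex s fun y => l (F'.cc g⁻¹ y)

/-- **The data on the full cone** at the base point (invariant under `M U⁺`). -/
structure T0 [MeasurableSpace (F'.Cn Finset.univ)] (C : Cpl μ μ' W)
    (E : POM (F'.Y Finset.univ) K) (θ₀ : POM (F'.Cn Finset.univ) K)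
    (L : (Fin r → ℝ) →ₗ[ℝ] (Fin r → ℝ)) : Prop where
  isP : E.IsP
  iE : Inv C (F.P Finset.univ) E
  i0 : Inv C (F.N Finset.univ) θ₀
  one : θ₀.f 1 = 1
  mod : ∀ φ f, Bd φ → Bd f →
    θ₀.f (φ ∘ F'.dir (F'.N Finset.univ) Finset.univ * f) = E.f φ * θ₀.f f
  eig : ∀ a ∈ F.Z, ∀ l s, ∀ u ∈ XF F' C F.Up E l s,
    C.s.π a * u * C.s.π a⁻¹ = Complex.exp (s * l (L (F.ℓ a)) * Complex.I) • u
  lm : ∃ (U : Ultrafilter ℕ) (ν : ℕ → Measure G) (_ : ∀ n, IsProbabilityMeasure (ν n))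
    (V : Set G') (ζ : ℕ → F'.Cn Finset.univ), Bp μ' V ∧ Lm C U ν V ζ θ₀
  win : ∃ (a : ℕ → G) (U : Ultrafilter ℕ) (V : Set G'), (∀ n, a n ∈ F.Z) ∧
    Wn C F.Up a U V ((1 : G') : F'.Y Finset.univ) E
  vol : ∃ a ∈ F.Z, (∀ i, 0 < F.ℓ a i) ∧ (∀ i, 0 < L (F.ℓ a) i) ∧ F.ρ (F.ℓ a) ≤ F'.ρ (L (F.ℓ a))

variable {X : Type} [NormedAddCommGroup X] [NormedSpace ℝ X]

/-- **The projection valued calculus at the base point** of the cone `G' / H'`. -/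
structure T1 (C : Cpl μ μ' W) (E : POM (F'.Y Finset.univ) K) (H' : Subgroup G')
    [MeasurableSpace (G' ⧸ H')] (t' : (Fin r → ℝ) →ₗ[ℝ] X) (θ : POM (G' ⧸ H') K) : Prop where
  ht : F'.Ht H' t'
  isP : θ.IsP
  inv : Inv C F.Up θ
  dir : ∀ φ, Bd φ → θ.f (φ ∘ F'.dir H' Finset.univ) = E.f φ
  mem : ∀ (l : X →L[ℝ] ℝ) s, θ.f (ex s fun y => l (F'.hq H' t' y)) ∈
    XF F' C F.Up E ((l : X →ₗ[ℝ] ℝ) ∘ₗ t') s

/-- **The output of block B7**: the family over the cone `G / H` of calculi on the cone `G' / H'`.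
Real case: `X = ℝ`, `t = ρ`, `t' = ρ ∘ L⁻¹`. Ultrametric case: `X = 𝔞`, `t = L`, `t' = id`. -/
structure TH (C : Cpl μ μ' W) (E : POM (F'.Y Finset.univ) K)
    (L : (Fin r → ℝ) →ₗ[ℝ] (Fin r → ℝ)) (H : Subgroup G) (t : (Fin r → ℝ) →ₗ[ℝ] X)
    (H' : Subgroup G') [MeasurableSpace (G' ⧸ H')] (t' : (Fin r → ℝ) →ₗ[ℝ] X)
    (θ : G ⧸ H → POM (G' ⧸ H') K) (c₀ : X) : Prop where
  ht : F.Ht H t
  base : T1 F F' C E H' t' (θ (1 : G))
  bij : Function.Bijective L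
  iota : ∀ x, L (x ∘ F.ι) = L x ∘ F'.ι
  comp : ∀ x, t' (L x) = t x
  hι : ∀ x, t x = 0 → t (x ∘ F.ι) = 0
  hι' : ∀ x, t' x = 0 → t' (x ∘ F'.ι) = 0
  fam : Fam C θ
  isP : ∀ z, (θ z).IsP
  onto : ∀ a ∈ F.Z, ∃ b ∈ F'.Z, F'.ℓ b = L (F.ℓ a)
  sh : ∀ a ∈ F.P Finset.univ, ∀ b ∈ F'.P Finset.univ, t (F.ℓ a) = t' (F'.ℓ b) →
    ∀ z f, Bd f → (θ (rt H a z)).f f = (θ z).f (f ∘ rt H' b)
  rel : Rel θ (F.Op H H) (fun q => F.dd H t q + c₀) (F'.Op H' H') (F'.dd H' t')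

end Vale.Agent.P092TH
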